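import Vale.Agent.P012.Defs

/-! Task G: greedy approximation. -/

namespace Vale.Agent.P012

open Finset

/-- One greedy step. -/
theorem approx_step (E U V T : ℕ) (hV : 1 ≤ V) (hT : 2 ≤ T)
    (h1 : (U : ℚ) / (2 ^ E * V) ≤ 1 / (T : ℚ)) (h2 : ¬ (U : ℚ) / (2 ^ E * V) ≤ 1 / 2 ^ E) :
    ∃ n g U' : ℕ, 2 ≤ n ∧ 1 ≤ g ∧ g ≤ 2 * T ∧
      (1 : ℚ) / n ≤ (U : ℚ) / (2 ^ E * V) ∧
      (U : ℚ) / (2 ^ E * V) = 1 / n + (U' : ℚ) / (2 ^ E * (V * g : ℕ)) ∧
      (U' : ℚ) / (2 ^ E * (V * g : ℕ)) < 1 / n ∧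
      (U' : ℚ) / (2 ^ E * (V * g : ℕ)) ≤ (U : ℚ) / (2 ^ E * V) / T := by
  have hVq : (0 : ℚ) < V := by exact_mod_cast hV
  have hTq : (0 : ℚ) < T := by exact_mod_cast (by omega : 0 < T)
  have hEq : (0 : ℚ) < 2 ^ E := by positivity
  -- natural number forms
  have h1' : T * U ≤ 2 ^ E * V := by
    have := h1
    rw [div_le_div_iff₀ (by positivity) hTq] at this
    have h3 : ((T * U : ℕ) : ℚ) ≤ ((2 ^ E * V : ℕ) : ℚ) := by
      push_cast
      linarith
    exact_mod_cast h3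
  have h2' : V < U := by
    by_contra hcon
    push Not at hcon
    apply h2
    rw [div_le_div_iff₀ (by positivity) hEq]
    have : (U : ℚ) ≤ V := by exact_mod_cast hcon
    nlinarith
  have hU : 0 < U := by omega
  -- maximal e
  have hex : ∃ e, e < E ∧ 2 ^ e * (T * U) ≤ 2 ^ E * V ∧ 2 ^ E * V < 2 ^ (e + 1) * (T * U) := by
    have hP : ∃ e, 2 ^ E * V < 2 ^ e * (T * U) := by
      refine ⟨E, ?_⟩
      have : V < T * U := by nlinarith
      exact Nat.mul_lt_mul_of_pos_left this (by positivity)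
    classical
    have hfind := Nat.find_spec hP
    have hE : Nat.find hP ≤ E := by
      apply Nat.find_min'
      have : V < T * U := by nlinarith
      exact Nat.mul_lt_mul_of_pos_left this (by positivity)
    have hne : Nat.find hP ≠ 0 := by
      intro h0
      rw [h0] at hfind
      simp at hfind
      omega
    refine ⟨Nat.find hP - 1, by omega, ?_, ?_⟩
    · have := Nat.find_min hP (m := Nat.find hP - 1) (by omega)
      omega
    · rw [Nat.sub_add_cancel (by omega)]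
      exact hfind
  obtain ⟨e, heE, he1, he2⟩ := hex
  -- n' = ceil (V2 / U) where V2 = 2^(E-e) V
  set V2 : ℕ := 2 ^ (E - e) * V with hV2
  have hV2e : 2 ^ e * V2 = 2 ^ E * V := by
    rw [hV2, ← mul_assoc, ← pow_add, Nat.add_sub_cancel' (by omega)]
  have hge : T * U ≤ V2 := by
    have : 2 ^ e * (T * U) ≤ 2 ^ e * V2 := by rw [hV2e]; exact he1
    exact Nat.le_of_mul_le_mul_left this (by positivity)
  have hlt : V2 < 2 * (T * U) := by
    have : 2 ^ e * V2 < 2 ^ e * (2 * (T * U)) := by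
      rw [hV2e]
      calc 2 ^ E * V < 2 ^ (e + 1) * (T * U) := he2
        _ = 2 ^ e * (2 * (T * U)) := by ring
    exact Nat.lt_of_mul_lt_mul_left this
  -- g
  set g : ℕ := (V2 + U - 1) / U with hg
  have hg1 : V2 ≤ U * g := by
    have := Nat.div_add_mod (V2 + U - 1) U
    have h3 := Nat.mod_lt (V2 + U - 1) hU
    rw [← hg] at this
    omega
  have hg2 : U * g < V2 + U := by
    have := Nat.div_mul_le_self (V2 + U - 1) U
    rw [← hg] at this
    rw [mul_comm]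
    omega
  have hgT : T ≤ g := by
    have : U * T ≤ U * g := by rw [mul_comm U T]; exact hge.trans hg1
    exact Nat.le_of_mul_le_mul_left this hU
  have hg2T : g ≤ 2 * T := by
    by_contra hcon
    push Not at hcon
    have : U * (2 * T + 1) ≤ U * g := Nat.mul_le_mul_left _ hcon
    nlinarith
  have hgpos : 0 < g := by omega
  have hgq : (0 : ℚ) < g := by exact_mod_cast hgpos
  set U' : ℕ := U * g - V2 with hU'
  have hU'lt : U' < U := by omega
  have hUeq : (U' : ℚ) = U * g - V2 := by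
    rw [hU', Nat.cast_sub hg1]
    push_cast
    ring
  have h2e : (0 : ℚ) < 2 ^ e := by positivity
  have hV2q : (2 : ℚ) ^ E * V = 2 ^ e * V2 := by exact_mod_cast hV2e.symm
  have hV2pos : (0 : ℚ) < V2 := by
    have : 0 < V2 := lt_of_lt_of_le (by positivity) hge
    exact_mod_cast this
  have hU'ltq : (U' : ℚ) < U := by exact_mod_cast hU'lt
  have heq : (U : ℚ) / (2 ^ E * V) =
      1 / ((2 ^ e * g : ℕ) : ℚ) + (U' : ℚ) / (2 ^ E * (V * g : ℕ)) := by
    have : (2 : ℚ) ^ E * ((V * g : ℕ) : ℚ) = 2 ^ e * V2 * g := by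
      push_cast
      rw [← hV2q]; ring
    rw [this, hV2q, hUeq]
    push_cast
    field_simp
    ring
  refine ⟨2 ^ e * g, g, U', ?_, hgpos, hg2T, ?_, heq, ?_, ?_⟩
  · have : 1 ≤ 2 ^ e := Nat.one_le_two_pow
    nlinarith
  · rw [heq]
    have : (0 : ℚ) ≤ (U' : ℚ) / (2 ^ E * (V * g : ℕ)) := by positivity
    linarith
  · have : (2 : ℚ) ^ E * ((V * g : ℕ) : ℚ) = 2 ^ e * V2 * g := by
      push_cast
      rw [← hV2q]; ring
    rw [this]
    push_cast
    rw [div_lt_div_iff₀ (by positivity) (by positivity)]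
    have h5 : (U' : ℚ) < V2 := by
      have : U' < V2 := by nlinarith
      exact_mod_cast this
    have h6 : (0 : ℚ) < 2 ^ e * g := by positivity
    nlinarith
  · have : (2 : ℚ) ^ E * ((V * g : ℕ) : ℚ) = 2 ^ E * V * g := by
      push_cast
      ring
    rw [this, ← div_div, ]
    have h7 : (U' : ℚ) / (2 ^ E * V) ≤ U / (2 ^ E * V) := by
      apply div_le_div_of_nonneg_right hU'ltq.le (by positivity)
    have h8 : (T : ℚ) ≤ g := by exact_mod_cast hgT
    have h9 : (0 : ℚ) ≤ (U' : ℚ) / (2 ^ E * V) := by positivity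
    calc (U' : ℚ) / (2 ^ E * V) / g ≤ (U' : ℚ) / (2 ^ E * V) / T := by
          apply div_le_div_of_nonneg_left h9 hTq h8
      _ ≤ _ := div_le_div_of_nonneg_right h7 hTq.le

/-- the invariant of the greedy process -/
def Inv (x : ℚ) (E : ℕ) (D : Finset ℕ) (V U : ℕ) : Prop :=
  (∀ n ∈ D, 2 ≤ n) ∧ 1 ≤ V ∧
    x = ∑ n ∈ D, (1 : ℚ) / (n : ℚ) + (U : ℚ) / (2 ^ E * V) ∧
    ∀ n ∈ D, (U : ℚ) / (2 ^ E * V) < 1 / (n : ℚ)

theorem inv_step {x : ℚ} {E : ℕ} {D : Finset ℕ} {V U : ℕ} (T : ℕ) (h : Inv x E D V U)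
    (hT : 2 ≤ T) (h1 : (U : ℚ) / (2 ^ E * V) ≤ 1 / (T : ℚ))
    (h2 : ¬ (U : ℚ) / (2 ^ E * V) ≤ 1 / 2 ^ E) :
    ∃ (D' : Finset ℕ) (g U' : ℕ), Inv x E D' (V * g) U' ∧ D'.card ≤ D.card + 1 ∧ 1 ≤ g ∧
      g ≤ 2 * T ∧ (U' : ℚ) / (2 ^ E * (V * g : ℕ)) ≤ (U : ℚ) / (2 ^ E * V) / T := by
  obtain ⟨hD, hV, hx, hlt⟩ := h
  obtain ⟨n, g, U', hn, hg1, hg2, hle, heq, hlt', hdiv⟩ := approx_step E U V T hV hT h1 h2
  have hnD : n ∉ D := fun hmem => absurd (hlt n hmem) (not_lt.mpr hle)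
  refine ⟨insert n D, g, U', ⟨?_, ?_, ?_, ?_⟩, ?_, hg1, hg2, hdiv⟩
  · intro m hm
    rcases Finset.mem_insert.mp hm with rfl | hm
    · exact hn
    · exact hD m hm
  · exact Nat.mul_pos hV hg1
  · rw [Finset.sum_insert hnD, hx]
    rw [heq]
    ring
  · intro m hm
    rcases Finset.mem_insert.mp hm with rfl | hm
    · exact hlt'
    · refine lt_trans ?_ (hlt m hm)
      rw [heq]
      have hnq : (0 : ℚ) < 1 / n := by
        have : (0 : ℚ) < n := by exact_mod_cast (by omega : 0 < n)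
        positivity
      linarith
  · exact Finset.card_insert_le _ _

theorem stageA (E a b : ℕ) (ha : 1 ≤ a) (hab : a < b) (i : ℕ) :
    ∃ (D : Finset ℕ) (V U : ℕ), Inv ((a : ℚ) / b) E D V U ∧ D.card ≤ 1 + i ∧
      V ≤ 2 * b * (2 ^ i * 2 ^ (2 ^ i - 1)) ∧
      ((U : ℚ) / (2 ^ E * V) ≤ 1 / 2 ^ E ∨ (U : ℚ) / (2 ^ E * V) ≤ 1 / 2 ^ (2 ^ i)) := by
  have hbq : (0 : ℚ) < b := by exact_mod_cast (by omega : 0 < b)
  have hEq : (0 : ℚ) < 2 ^ E := by positivity
  induction i with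
  | zero =>
    by_cases h : 2 * a ≤ b
    · refine ⟨∅, b, a * 2 ^ E, ⟨by simp, by omega, ?_, by simp⟩, by simp, by simp; omega, ?_⟩
      · push_cast
        simp
        field_simp
      · right
        have : ((a * 2 ^ E : ℕ) : ℚ) / (2 ^ E * b) = a / b := by
          push_cast
          field_simp
        rw [this]
        rw [div_le_div_iff₀ hbq (by positivity)]
        have : ((2 * a : ℕ) : ℚ) ≤ b := by exact_mod_cast h
        push_cast at this
        norm_num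
        linarith
    · push Not at h
      have hθ : (((2 * a - b) * 2 ^ E : ℕ) : ℚ) / (2 ^ E * (2 * b : ℕ)) = a / b - 1 / 2 := by
        rw [Nat.cast_mul, Nat.cast_sub h.le]
        push_cast
        field_simp
      refine ⟨{2}, 2 * b, (2 * a - b) * 2 ^ E, ⟨by simp, by omega, ?_, ?_⟩, by simp, by simp, ?_⟩
      · rw [hθ]
        simp
      · intro n hn
        rw [Finset.mem_singleton] at hn
        subst hn
        rw [hθ]
        have : (a : ℚ) / b < 1 := by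
          rw [div_lt_one hbq]
          exact_mod_cast hab
        norm_num
        linarith
      · right
        rw [hθ]
        have : (a : ℚ) / b < 1 := by
          rw [div_lt_one hbq]
          exact_mod_cast hab
        norm_num
        linarith
  | succ i ih =>
    obtain ⟨D, V, U, hinv, hcard, hV, hor⟩ := ih
    have hmono : 2 * b * (2 ^ i * 2 ^ (2 ^ i - 1)) * (2 * 2 ^ (2 ^ i)) =
        2 * b * (2 ^ (i + 1) * 2 ^ (2 ^ (i + 1) - 1)) := by
      have h1 : 2 ^ (i + 1) - 1 = (2 ^ i - 1) + 2 ^ i := by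
        have : 1 ≤ 2 ^ i := Nat.one_le_two_pow
        rw [pow_succ]; omega
      rw [h1, pow_add, pow_succ]
      ring
    by_cases h : (U : ℚ) / (2 ^ E * V) ≤ 1 / 2 ^ E
    · refine ⟨D, V, U, hinv, by omega, ?_, Or.inl h⟩
      calc V ≤ 2 * b * (2 ^ i * 2 ^ (2 ^ i - 1)) := hV
        _ ≤ 2 * b * (2 ^ i * 2 ^ (2 ^ i - 1)) * (2 * 2 ^ (2 ^ i)) :=
          Nat.le_mul_of_pos_right _ (by positivity)
        _ = _ := hmono
    · have h' : (U : ℚ) / (2 ^ E * V) ≤ 1 / ((2 ^ (2 ^ i) : ℕ) : ℚ) := by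
        rcases hor with h3 | h3
        · exact absurd h3 h
        · push_cast
          exact h3
      have hT : 2 ≤ 2 ^ (2 ^ i) := by
        calc 2 = 2 ^ 1 := by norm_num
          _ ≤ 2 ^ (2 ^ i) := Nat.pow_le_pow_right (by norm_num) Nat.one_le_two_pow
      obtain ⟨D', g, U', hinv', hc', hg1, hg2, hd⟩ := inv_step _ hinv hT h' h
      refine ⟨D', V * g, U', hinv', by omega, ?_, Or.inr ?_⟩
      · calc V * g ≤ 2 * b * (2 ^ i * 2 ^ (2 ^ i - 1)) * (2 * 2 ^ (2 ^ i)) :=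
            Nat.mul_le_mul hV hg2
          _ = _ := hmono
      · refine hd.trans ?_
        calc (U : ℚ) / (2 ^ E * V) / ((2 ^ (2 ^ i) : ℕ) : ℚ)
            ≤ 1 / ((2 ^ (2 ^ i) : ℕ) : ℚ) / ((2 ^ (2 ^ i) : ℕ) : ℚ) :=
              div_le_div_of_nonneg_right h' (by positivity)
          _ = 1 / 2 ^ (2 ^ (i + 1)) := by
              push_cast
              rw [div_div, ← pow_add, pow_succ 2 i, mul_two]

theorem stageB (E a b s : ℕ) (D₀ : Finset ℕ) (VA U₀ : ℕ)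
    (hinv₀ : Inv ((a : ℚ) / b) E D₀ VA U₀)
    (hor₀ : (U₀ : ℚ) / (2 ^ E * VA) ≤ 1 / 2 ^ E ∨ (U₀ : ℚ) / (2 ^ E * VA) ≤ 1 / 2 ^ (2 ^ s))
    (k : ℕ) :
    ∃ (D : Finset ℕ) (L : List ℕ) (U : ℕ), Inv ((a : ℚ) / b) E D (VA * L.prod) U ∧
      D.card ≤ D₀.card + k ∧ L.length = k ∧ (∀ g ∈ L, 1 ≤ g ∧ g ≤ 2 * 2 ^ (2 ^ s)) ∧
      ((U : ℚ) / (2 ^ E * (VA * L.prod : ℕ)) ≤ 1 / 2 ^ E ∨
        (U : ℚ) / (2 ^ E * (VA * L.prod : ℕ)) ≤ 1 / 2 ^ (2 ^ s * (k + 1))) := by
  induction k with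
  | zero =>
    refine ⟨D₀, [], U₀, by simpa using hinv₀, by simp, rfl, by simp, ?_⟩
    simpa using hor₀
  | succ k ih =>
    obtain ⟨D, L, U, hinv, hcard, hL, hLb, hor⟩ := ih
    by_cases h : (U : ℚ) / (2 ^ E * (VA * L.prod : ℕ)) ≤ 1 / 2 ^ E
    · refine ⟨D, 1 :: L, U, by simpa using hinv, by omega, by simp [hL], ?_, ?_⟩
      · intro g hg
        rcases List.mem_cons.mp hg with rfl | hg
        · exact ⟨le_refl _, by have : 1 ≤ 2 ^ (2 ^ s) := Nat.one_le_two_pow; omega⟩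
        · exact hLb g hg
      · left
        simpa using h
    · have h3 : (U : ℚ) / (2 ^ E * (VA * L.prod : ℕ)) ≤ 1 / 2 ^ (2 ^ s * (k + 1)) := by
        rcases hor with h3 | h3
        · exact absurd h3 h
        · exact h3
      have h' : (U : ℚ) / (2 ^ E * (VA * L.prod : ℕ)) ≤ 1 / ((2 ^ (2 ^ s) : ℕ) : ℚ) := by
        refine h3.trans ?_
        push_cast
        apply one_div_le_one_div_of_le (by positivity)
        apply pow_le_pow_right₀ (by norm_num)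
        exact Nat.le_mul_of_pos_right _ (by omega)
      have hT : 2 ≤ 2 ^ (2 ^ s) := by
        calc 2 = 2 ^ 1 := by norm_num
          _ ≤ 2 ^ (2 ^ s) := Nat.pow_le_pow_right (by norm_num) Nat.one_le_two_pow
      obtain ⟨D', g, U', hinv', hc', hg1, hg2, hd⟩ := inv_step _ hinv hT h' h
      have hprod : VA * (g :: L).prod = VA * L.prod * g := by
        rw [List.prod_cons]; ring
      refine ⟨D', g :: L, U', ?_, by omega, by simp [hL], ?_, ?_⟩
      · rw [hprod]; exact hinv'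
      · intro g' hg'
        rcases List.mem_cons.mp hg' with rfl | hg'
        · exact ⟨hg1, hg2⟩
        · exact hLb g' hg'
      · right
        rw [hprod]
        refine hd.trans ?_
        calc (U : ℚ) / (2 ^ E * (VA * L.prod : ℕ)) / ((2 ^ (2 ^ s) : ℕ) : ℚ)
            ≤ 1 / 2 ^ (2 ^ s * (k + 1)) / ((2 ^ (2 ^ s) : ℕ) : ℚ) :=
              div_le_div_of_nonneg_right h3 (by positivity)
          _ = 1 / 2 ^ (2 ^ s * (k + 1 + 1)) := by
              push_cast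
              rw [div_div, ← pow_add]
              congr 2

theorem approx_main (s C a b : ℕ) (hs : 2 ≤ s) (hC : 1 ≤ C) (ha : 1 ≤ a) (hab : a < b)
    (hb : b ≤ 2 ^ (2 ^ s)) :
    ∃ (D : Finset ℕ) (VA : ℕ) (L : List ℕ) (U : ℕ),
      D.card ≤ 1 + s + 4 * C ∧ (∀ n ∈ D, 2 ≤ n) ∧ 1 ≤ VA ∧ VA ≤ 2 ^ (4 * 2 ^ s) ∧
      L.length = 4 * C ∧ (∀ g ∈ L, 1 ≤ g ∧ g ≤ 2 ^ (4 * 2 ^ s)) ∧
      (a : ℚ) / b = ∑ n ∈ D, (1 : ℚ) / (n : ℚ)
        + (U : ℚ) / (2 ^ (C * (4 * 2 ^ s)) * VA * L.prod) ∧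
      (∀ n ∈ D, (U : ℚ) / (2 ^ (C * (4 * 2 ^ s)) * VA * L.prod) < 1 / (n : ℚ)) ∧
      (U : ℚ) / (2 ^ (C * (4 * 2 ^ s)) * VA * L.prod) ≤ 1 / 2 ^ (C * (4 * 2 ^ s)) := by
  set E : ℕ := C * (4 * 2 ^ s) with hE
  obtain ⟨D₀, VA, U₀, hinv₀, hc₀, hVA, hor₀⟩ := stageA E a b ha hab s
  obtain ⟨D, L, U, hinv, hcard, hL, hLb, hor⟩ := stageB E a b s D₀ VA U₀ hinv₀ hor₀ (4 * C)
  obtain ⟨hD, hV, hx, hlt⟩ := hinv
  have hcast : (2 : ℚ) ^ E * ((VA * L.prod : ℕ) : ℚ) = 2 ^ E * VA * L.prod := by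
    push_cast; ring
  have hss : s ≤ 2 ^ s := Nat.lt_two_pow_self.le
  refine ⟨D, VA, L, U, by omega, hD, hinv₀.2.1, ?_, hL, ?_, ?_, ?_, ?_⟩
  · have h1 : 2 * b * (2 ^ s * 2 ^ (2 ^ s - 1)) = b * (2 ^ s * 2 ^ (2 ^ s)) := by
      have : 2 ^ (2 ^ s) = 2 * 2 ^ (2 ^ s - 1) := by
        rw [← pow_succ']
        congr 1
        have : 1 ≤ 2 ^ s := Nat.one_le_two_pow
        omega
      rw [this]
      ring
    calc VA ≤ b * (2 ^ s * 2 ^ (2 ^ s)) := by rw [← h1]; exact hVA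
      _ ≤ 2 ^ (2 ^ s) * (2 ^ (2 ^ s) * 2 ^ (2 ^ s)) := by
          apply Nat.mul_le_mul hb
          apply Nat.mul_le_mul_right
          exact Nat.pow_le_pow_right (by norm_num) hss
      _ = 2 ^ (3 * 2 ^ s) := by
          rw [← pow_add, ← pow_add]
          congr 1
          ring
      _ ≤ 2 ^ (4 * 2 ^ s) := Nat.pow_le_pow_right (by norm_num) (by omega)
  · intro g hg
    refine ⟨(hLb g hg).1, (hLb g hg).2.trans ?_⟩
    rw [← pow_succ']
    apply Nat.pow_le_pow_right (by norm_num)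
    have : 1 ≤ 2 ^ s := Nat.one_le_two_pow
    omega
  · rw [← hcast]; exact hx
  · rw [← hcast]; exact hlt
  · rw [← hcast]
    rcases hor with h | h
    · exact h
    · refine h.trans ?_
      apply one_div_le_one_div_of_le (by positivity)
      apply pow_le_pow_right₀ (by norm_num)
      rw [hE]
      nlinarith

end Vale.Agent.P012
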