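import Vale.Agent.P012.Defs

/-! Task E: first-moment choice of the parameters. -/

namespace Vale.Agent.P012

open Finset

namespace Choice

/-- Product formula for sums over functions into a finset. -/
lemma sum_pi_prod {J β : Type*} [Fintype J] [DecidableEq J] (D : Finset β) (I : Finset J)
    (g : β → ℝ) :
    ∑ ω ∈ Fintype.piFinset (fun _ : J => D), ∏ j ∈ I, g (ω j) =
      (∑ d ∈ D, g d) ^ I.card * (D.card : ℝ) ^ (Iᶜ).card := by
  classical
  have h := Finset.prod_univ_sum (fun _ : J => D) (fun j d => if j ∈ I then g d else (1 : ℝ))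
  have h1 : ∏ i : J, ∑ d ∈ D, (if i ∈ I then g d else (1 : ℝ)) =
      (∑ d ∈ D, g d) ^ I.card * (D.card : ℝ) ^ (Iᶜ).card := by
    have h2 : ∀ i : J, ∑ d ∈ D, (if i ∈ I then g d else (1 : ℝ)) =
        if i ∈ I then ∑ d ∈ D, g d else (D.card : ℝ) := by
      intro i
      split_ifs <;> simp
    simp only [h2]
    rw [Finset.prod_ite, Finset.prod_const, Finset.prod_const]
    congr 3
    · ext i; simp
    · ext i; simp
  rw [← h1, h]
  apply Finset.sum_congr rfl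
  intro ω _
  rw [Finset.prod_ite, Finset.prod_const_one, mul_one]
  apply Finset.prod_congr _ (fun _ _ => rfl)
  ext i; simp

lemma sum_pi_one {J β : Type*} [Fintype J] [DecidableEq J] (D : Finset β) (j : J)
    (g : β → ℝ) :
    ∑ ω ∈ Fintype.piFinset (fun _ : J => D), g (ω j) * (D.card : ℝ) =
      (∑ d ∈ D, g d) * (D.card : ℝ) ^ (Fintype.card J) := by
  have h := sum_pi_prod D ({j} : Finset J) g
  simp only [Finset.prod_singleton, Finset.card_singleton, pow_one] at h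
  rw [← Finset.sum_mul, h]
  have h2 : (({j} : Finset J)ᶜ).card + 1 = Fintype.card J := by
    have := Finset.card_add_card_compl ({j} : Finset J)
    rw [Finset.card_singleton] at this
    omega
  rw [mul_assoc, ← pow_succ, h2]

lemma sum_pi_two {J β : Type*} [Fintype J] [DecidableEq J] (D : Finset β) {i j : J} (hij : i ≠ j)
    (g : β → ℝ) :
    ∑ ω ∈ Fintype.piFinset (fun _ : J => D), g (ω i) * g (ω j) * (D.card : ℝ) ^ 2 =
      (∑ d ∈ D, g d) ^ 2 * (D.card : ℝ) ^ (Fintype.card J) := by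
  have h := sum_pi_prod D ({i, j} : Finset J) g
  simp only [Finset.prod_pair hij, Finset.card_pair hij] at h
  rw [← Finset.sum_mul, h]
  have h2 : (({i, j} : Finset J)ᶜ).card + 2 = Fintype.card J := by
    have := Finset.card_add_card_compl ({i, j} : Finset J)
    rw [Finset.card_pair hij] at this
    omega
  rw [mul_assoc, ← pow_add, h2]

/-- Telescoping bound. -/
lemma sum_inv_sq (X : ℕ) : ∑ n ∈ Finset.Icc 2 X, (1 : ℝ) / (n : ℝ) ^ 2 ≤ 1 := by
  have h : ∀ X : ℕ, 1 ≤ X → ∑ n ∈ Finset.Icc 2 X, (1 : ℝ) / (n : ℝ) ^ 2 ≤ 1 - 1 / X := by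
    intro X hX
    induction X, hX using Nat.le_induction with
    | base => simp
    | succ k hk ih =>
      rw [Finset.sum_Icc_succ_top (by omega)]
      have hk' : (0 : ℝ) < k := by exact_mod_cast hk
      have h1 : (1 : ℝ) / ((k + 1 : ℕ) : ℝ) ^ 2 ≤ 1 / k - 1 / ((k + 1 : ℕ) : ℝ) := by
        push_cast
        rw [div_sub_div _ _ hk'.ne' (by positivity), div_le_div_iff₀ (by positivity) (by positivity)]
        nlinarith
      linarith
  rcases Nat.eq_zero_or_pos X with h0 | h0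
  · subst h0; simp
  · have := h X h0
    have h2 : (0 : ℝ) ≤ 1 / X := by positivity
    linarith

/-- The two-point function: pairs of equal first coordinates. -/
lemma sum_pairs {J : Type*} [Fintype J] [DecidableEq J] (Q : Finset ℕ) (U : ℕ) (hQ : 0 < Q.card)
    (hU : 0 < U) {i j : J} (hij : i ≠ j) :
    ∑ ω ∈ Fintype.piFinset (fun _ : J => Q ×ˢ Finset.Icc 1 U),
      (if (ω i).1 = (ω j).1 then (1 : ℝ) else 0) * (Q.card : ℝ) =
      ((Q ×ˢ Finset.Icc 1 U).card : ℝ) ^ (Fintype.card J) := by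
  set D := Q ×ˢ Finset.Icc 1 U with hD
  have hDc : (D.card : ℝ) = Q.card * U := by
    rw [hD, Finset.card_product]; simp
  have hQr : (0 : ℝ) < Q.card := by exact_mod_cast hQ
  have hUr : (0 : ℝ) < U := by exact_mod_cast hU
  have hDpos : (0 : ℝ) < D.card := by rw [hDc]; positivity
  have h1 : ∀ ω ∈ Fintype.piFinset (fun _ : J => D),
      (if (ω i).1 = (ω j).1 then (1 : ℝ) else 0) =
      ∑ q ∈ Q, (if (ω i).1 = q then (1 : ℝ) else 0) * (if (ω j).1 = q then (1 : ℝ) else 0) := by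
    intro ω hω
    have hi : (ω i).1 ∈ Q := by
      have := Fintype.mem_piFinset.mp hω i
      rw [hD, Finset.mem_product] at this
      exact this.1
    rw [Finset.sum_eq_single (ω i).1]
    · rw [if_pos rfl, one_mul]
      by_cases h : (ω i).1 = (ω j).1
      · rw [if_pos h, if_pos h.symm]
      · rw [if_neg h, if_neg (fun h' => h h'.symm)]
    · intro q _ hq
      rw [if_neg (fun h => hq h.symm), zero_mul]
    · intro h; exact absurd hi h
  have h2 : ∀ q ∈ Q, ∑ d ∈ D, (if d.1 = q then (1 : ℝ) else 0) = U := by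
    intro q hq
    rw [hD, Finset.sum_product, Finset.sum_eq_single q]
    · simp
    · intro q' _ hne
      simp [hne]
    · intro h; exact absurd hq h
  rw [← Finset.sum_mul, Finset.sum_congr rfl h1, Finset.sum_comm]
  have h3 : ∀ q ∈ Q, ∑ ω ∈ Fintype.piFinset (fun _ : J => D),
      (if (ω i).1 = q then (1 : ℝ) else 0) * (if (ω j).1 = q then (1 : ℝ) else 0) =
      (U : ℝ) ^ 2 * (D.card : ℝ) ^ (Fintype.card J) / (D.card : ℝ) ^ 2 := by
    intro q hq
    have h4 := sum_pi_two D hij (fun d : ℕ × ℕ => if d.1 = q then (1 : ℝ) else 0)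
    rw [h2 q hq, ← Finset.sum_mul] at h4
    rw [eq_div_iff (by positivity)]
    exact h4
  rw [Finset.sum_congr rfl h3, Finset.sum_const, nsmul_eq_mul]
  generalize (D.card : ℝ) ^ (Fintype.card J) = M
  rw [hDc]
  field_simp

/-- The divisibility events. -/
lemma sum_divs {J : Type*} [Fintype J] [DecidableEq J] (Q : Finset ℕ) (U y : ℕ)
    (hQ : 0 < Q.card) (hU : 0 < U) (hQ2 : ∀ q ∈ Q, 2 ^ y < q) (j : J) :
    ∑ ω ∈ Fintype.piFinset (fun _ : J => Q ×ˢ Finset.Icc 1 U),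
      (if (ω j).1 ∣ (ω j).2 then (1 : ℝ) else 0) * 2 ^ y ≤
      ((Q ×ˢ Finset.Icc 1 U).card : ℝ) ^ (Fintype.card J) := by
  set D := Q ×ˢ Finset.Icc 1 U with hD
  have hDc : (D.card : ℝ) = Q.card * U := by
    rw [hD, Finset.card_product]; simp
  have hQr : (0 : ℝ) < Q.card := by exact_mod_cast hQ
  have hUr : (0 : ℝ) < U := by exact_mod_cast hU
  have hDpos : (0 : ℝ) < D.card := by rw [hDc]; positivity
  have h1 : ∀ q ∈ Q, ∑ x ∈ Finset.Icc 1 U, (if q ∣ x then (1 : ℝ) else 0) ≤ U / 2 ^ y := by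
    intro q hq
    have hq2 := hQ2 q hq
    have hqpos : 0 < q := lt_trans (by positivity) hq2
    rw [← Finset.sum_filter, Finset.sum_const, nsmul_eq_mul, mul_one]
    have h3 : (Finset.filter (fun x => q ∣ x) (Finset.Icc 1 U)).card = U / q := by
      have : Finset.Icc 1 U = Finset.Ioc 0 U := by
        ext x; simp only [Finset.mem_Icc, Finset.mem_Ioc]; omega
      rw [this]
      exact Nat.Ioc_filter_dvd_card_eq_div U q
    rw [h3]
    calc ((U / q : ℕ) : ℝ) ≤ (U : ℝ) / q := Nat.cast_div_le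
      _ ≤ U / 2 ^ y := by
        apply div_le_div_of_nonneg_left hUr.le (by positivity)
        exact_mod_cast hq2.le
  have h2 : ∑ d ∈ D, (if d.1 ∣ d.2 then (1 : ℝ) else 0) ≤ D.card / 2 ^ y := by
    rw [hD, Finset.sum_product]
    calc _ ≤ ∑ q ∈ Q, (U : ℝ) / 2 ^ y := Finset.sum_le_sum h1
      _ = D.card / 2 ^ y := by
        rw [Finset.sum_const, nsmul_eq_mul, hDc]; ring
  have h4 := sum_pi_one D j (fun d : ℕ × ℕ => if d.1 ∣ d.2 then (1 : ℝ) else 0)
  rw [← Finset.sum_mul] at h4 ⊢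
  have h5 : (0 : ℝ) < 2 ^ y := by positivity
  have h6 : (∑ ω ∈ Fintype.piFinset (fun _ : J => D),
      (if (ω j).1 ∣ (ω j).2 then (1 : ℝ) else 0)) * D.card * 2 ^ y ≤
      D.card * (D.card : ℝ) ^ (Fintype.card J) := by
    rw [h4]
    have h7 : 0 ≤ (D.card : ℝ) ^ (Fintype.card J) := by positivity
    calc (∑ d ∈ D, (if d.1 ∣ d.2 then (1 : ℝ) else 0)) * (D.card : ℝ) ^ (Fintype.card J) * 2 ^ y
        = (∑ d ∈ D, (if d.1 ∣ d.2 then (1 : ℝ) else 0)) * 2 ^ y *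
          (D.card : ℝ) ^ (Fintype.card J) := by ring
      _ ≤ D.card * (D.card : ℝ) ^ (Fintype.card J) := by
        apply mul_le_mul_of_nonneg_right _ h7
        rwa [le_div_iff₀ h5] at h2
  have h8 : D.card * ((∑ ω ∈ Fintype.piFinset (fun _ : J => D),
      (if (ω j).1 ∣ (ω j).2 then (1 : ℝ) else 0)) * 2 ^ y) ≤
      D.card * (D.card : ℝ) ^ (Fintype.card J) := by
    calc _ = (∑ ω ∈ Fintype.piFinset (fun _ : J => D),
      (if (ω j).1 ∣ (ω j).2 then (1 : ℝ) else 0)) * D.card * 2 ^ y := by ring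
      _ ≤ _ := h6
  exact le_of_mul_le_mul_left h8 hDpos

/-- Cauchy-Schwarz for one factor, `n` and `ν` fixed. -/
lemma factor_bound {α : Type*} (A : Finset α) (b : α → ℕ) (U n : ℕ) (Q : Finset ℕ)
    (ρ : ℝ) (hρ : 0 ≤ ρ) (ν : ℕ)
    (hF : ∑ q ∈ Q.filter (fun q => ¬ q ∣ n), ∑ x ∈ Finset.Icc 1 U,
        ‖F A b n ((x : ZMod n) * (q : ZMod n)⁻¹ * (ν : ZMod n))‖ ^ 2
        ≤ (A.card : ℝ) ^ 2 * ((Q.card : ℝ) * U) * ρ) :
    ∑ d ∈ Q ×ˢ Finset.Icc 1 U, (if ¬ d.1 ∣ n then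
        ‖F A b n ((d.2 : ZMod n) * (d.1 : ZMod n)⁻¹ * (ν : ZMod n))‖ else 0) ≤
      (Q ×ˢ Finset.Icc 1 U).card * A.card * Real.sqrt ρ := by
  set D := Q ×ˢ Finset.Icc 1 U with hD
  have hDc : (D.card : ℝ) = Q.card * U := by
    rw [hD, Finset.card_product]; simp
  set g : ℕ × ℕ → ℝ := fun d => if ¬ d.1 ∣ n then
        ‖F A b n ((d.2 : ZMod n) * (d.1 : ZMod n)⁻¹ * (ν : ZMod n))‖ else 0 with hg
  have h1 : (∑ d ∈ D, g d) ^ 2 ≤ D.card * ∑ d ∈ D, g d ^ 2 := sq_sum_le_card_mul_sum_sq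
  have h2 : ∑ d ∈ D, g d ^ 2 = ∑ q ∈ Q.filter (fun q => ¬ q ∣ n), ∑ x ∈ Finset.Icc 1 U,
        ‖F A b n ((x : ZMod n) * (q : ZMod n)⁻¹ * (ν : ZMod n))‖ ^ 2 := by
    rw [hD, Finset.sum_product, Finset.sum_filter]
    apply Finset.sum_congr rfl
    intro q _
    by_cases h : ¬ q ∣ n
    · rw [if_pos h]
      apply Finset.sum_congr rfl
      intro x _
      simp only [hg, if_pos h]
    · rw [if_neg h]
      apply Finset.sum_eq_zero
      intro x _
      simp only [hg, if_neg h]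
      norm_num
  have h3 : (∑ d ∈ D, g d) ^ 2 ≤ (D.card * A.card * Real.sqrt ρ) ^ 2 := by
    calc (∑ d ∈ D, g d) ^ 2 ≤ D.card * ∑ d ∈ D, g d ^ 2 := h1
      _ ≤ D.card * ((A.card : ℝ) ^ 2 * ((Q.card : ℝ) * U) * ρ) := by
          rw [h2]
          exact mul_le_mul_of_nonneg_left hF (Nat.cast_nonneg _)
      _ = (D.card * A.card * Real.sqrt ρ) ^ 2 := by
          rw [mul_pow, Real.sq_sqrt hρ, hDc]; ring
  exact le_of_sq_le_sq h3 (by positivity)

/-- The restricted version of `Tsum`. -/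
noncomputable def hfun {α J : Type*} (A : Finset α) (b : α → ℕ) (ω : J → ℕ × ℕ) (n : ℕ)
    (I : Finset J) : ℝ :=
  ∑ ν ∈ (Finset.range n).filter (fun ν => Nat.Coprime ν n),
      ∏ j ∈ I, (if ¬ (ω j).1 ∣ n then
        ‖F A b n (((ω j).2 : ZMod n) * ((ω j).1 : ZMod n)⁻¹ * (ν : ZMod n))‖ else 0)

lemma hfun_nonneg {α J : Type*} (A : Finset α) (b : α → ℕ) (ω : J → ℕ × ℕ) (n : ℕ)
    (I : Finset J) : 0 ≤ hfun A b ω n I := by
  unfold hfun
  apply Finset.sum_nonneg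
  intro ν _
  apply Finset.prod_nonneg
  intro j _
  split_ifs
  · exact le_rfl
  · exact norm_nonneg _

/-- The average of `hfun`. -/
lemma hfun_avg {α J : Type*} [Fintype J] [DecidableEq J] (A : Finset α) (b : α → ℕ) (U n : ℕ)
    (Q : Finset ℕ) (ρ : ℝ) (hρ : 0 ≤ ρ) (hρ1 : ρ ≤ 1)
    (hF : ∀ ν : ℕ, Nat.Coprime ν n →
      ∑ q ∈ Q.filter (fun q => ¬ q ∣ n), ∑ x ∈ Finset.Icc 1 U,
        ‖F A b n ((x : ZMod n) * (q : ZMod n)⁻¹ * (ν : ZMod n))‖ ^ 2
        ≤ (A.card : ℝ) ^ 2 * ((Q.card : ℝ) * U) * ρ)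
    (I : Finset J) (k l : ℕ) (hI : I.card = 2 * k) (hkl : l ≤ k) :
    ∑ ω ∈ Fintype.piFinset (fun _ : J => Q ×ˢ Finset.Icc 1 U), hfun A b ω n I ≤
      n * (((Q ×ˢ Finset.Icc 1 U).card : ℝ) ^ (Fintype.card J) * (A.card : ℝ) ^ I.card *
        ρ ^ l) := by
  set D := Q ×ˢ Finset.Icc 1 U with hD
  set M : ℝ := (D.card : ℝ) ^ (Fintype.card J) with hM
  unfold hfun
  rw [Finset.sum_comm]
  have e4 : ∀ ν ∈ (Finset.range n).filter (fun ν => Nat.Coprime ν n),
      ∑ ω ∈ Fintype.piFinset (fun _ : J => D), ∏ j ∈ I, (if ¬ (ω j).1 ∣ n then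
        ‖F A b n (((ω j).2 : ZMod n) * ((ω j).1 : ZMod n)⁻¹ * (ν : ZMod n))‖ else 0) ≤
      M * (A.card : ℝ) ^ I.card * ρ ^ l := by
    intro ν hν
    have hνc := (Finset.mem_filter.mp hν).2
    have e5 := factor_bound A b U n Q ρ hρ ν (hF ν hνc)
    have e6 := sum_pi_prod D I (fun d : ℕ × ℕ => if ¬ d.1 ∣ n then
      ‖F A b n ((d.2 : ZMod n) * (d.1 : ZMod n)⁻¹ * (ν : ZMod n))‖ else 0)
    rw [e6]
    have e7 : 0 ≤ ∑ d ∈ D, (if ¬ d.1 ∣ n then
        ‖F A b n ((d.2 : ZMod n) * (d.1 : ZMod n)⁻¹ * (ν : ZMod n))‖ else 0) := by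
      apply Finset.sum_nonneg
      intro d _
      split_ifs
      · exact le_rfl
      · exact norm_nonneg _
    have e8 := pow_le_pow_left₀ e7 e5 I.card
    have e9 : (Real.sqrt ρ) ^ I.card ≤ ρ ^ l := by
      rw [hI, pow_mul, Real.sq_sqrt hρ]
      exact pow_le_pow_of_le_one hρ hρ1 hkl
    have e10 : (D.card : ℝ) ^ I.card * (D.card : ℝ) ^ (Iᶜ).card = M := by
      rw [← pow_add, Finset.card_add_card_compl, hM]
    calc (∑ d ∈ D, (if ¬ d.1 ∣ n then
        ‖F A b n ((d.2 : ZMod n) * (d.1 : ZMod n)⁻¹ * (ν : ZMod n))‖ else 0)) ^ I.card *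
        (D.card : ℝ) ^ (Iᶜ).card
        ≤ (D.card * A.card * Real.sqrt ρ) ^ I.card *
          (D.card : ℝ) ^ (Iᶜ).card := mul_le_mul_of_nonneg_right e8 (by positivity)
      _ = ((D.card : ℝ) ^ I.card * (D.card : ℝ) ^ (Iᶜ).card) *
          (A.card : ℝ) ^ I.card * (Real.sqrt ρ) ^ I.card := by
          rw [mul_pow, mul_pow]; ring
      _ ≤ M * (A.card : ℝ) ^ I.card * ρ ^ l := by
          rw [e10]
          exact mul_le_mul_of_nonneg_left e9 (by positivity)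
  refine le_trans (Finset.sum_le_sum e4) ?_
  rw [Finset.sum_const, nsmul_eq_mul]
  apply mul_le_mul_of_nonneg_right _ (by positivity)
  have := Finset.card_filter_le (Finset.range n) (fun ν => Nat.Coprime ν n)
  rw [Finset.card_range] at this
  exact_mod_cast this

/-- Average of the coincidence count. -/
lemma avg_pairs {J : Type*} [Fintype J] [DecidableEq J] (Q : Finset ℕ) (U : ℕ) (hQ : 0 < Q.card)
    (hU : 0 < U) (hcard : 8 * (Fintype.card J) ^ 2 ≤ Q.card) :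
    ∑ ω ∈ Fintype.piFinset (fun _ : J => Q ×ˢ Finset.Icc 1 U),
      ∑ p ∈ (Finset.univ : Finset (J × J)).filter (fun p => p.1 ≠ p.2),
        (if (ω p.1).1 = (ω p.2).1 then (1 : ℝ) else 0) ≤
      ((Q ×ˢ Finset.Icc 1 U).card : ℝ) ^ (Fintype.card J) / 8 := by
  set M : ℝ := ((Q ×ˢ Finset.Icc 1 U).card : ℝ) ^ (Fintype.card J) with hM
  have hM0 : 0 ≤ M := by positivity
  have hQr : (0 : ℝ) < Q.card := by exact_mod_cast hQ
  rw [Finset.sum_comm]
  have e2 : ∀ p ∈ (Finset.univ : Finset (J × J)).filter (fun p => p.1 ≠ p.2),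
      ∑ ω ∈ Fintype.piFinset (fun _ : J => Q ×ˢ Finset.Icc 1 U),
        (if (ω p.1).1 = (ω p.2).1 then (1 : ℝ) else 0) = M / Q.card := by
    intro p hp
    have := sum_pairs Q U hQ hU (Finset.mem_filter.mp hp).2
    rw [← Finset.sum_mul] at this
    rw [eq_div_iff hQr.ne']
    exact this
  rw [Finset.sum_congr rfl e2, Finset.sum_const, nsmul_eq_mul]
  have hc : (((Finset.univ : Finset (J × J)).filter (fun p => p.1 ≠ p.2)).card : ℝ) ≤
      (Fintype.card J : ℝ) ^ 2 := by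
    have h1 := Finset.card_filter_le (Finset.univ : Finset (J × J)) (fun p => p.1 ≠ p.2)
    have h2 : (Finset.univ : Finset (J × J)).card = (Fintype.card J) ^ 2 := by
      rw [Finset.card_univ, Fintype.card_prod]; ring
    rw [h2] at h1
    exact_mod_cast h1
  have hcr : 8 * (Fintype.card J : ℝ) ^ 2 ≤ Q.card := by exact_mod_cast hcard
  calc _ ≤ (Fintype.card J : ℝ) ^ 2 * (M / Q.card) :=
        mul_le_mul_of_nonneg_right hc (by positivity)
    _ ≤ (Q.card / 8) * (M / Q.card) := by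
        apply mul_le_mul_of_nonneg_right _ (by positivity)
        linarith
    _ = M / 8 := by field_simp

/-- Average of the divisibility count. -/
lemma avg_divs {J : Type*} [Fintype J] [DecidableEq J] (Q : Finset ℕ) (U y : ℕ)
    (hQ : 0 < Q.card) (hU : 0 < U) (hQ2 : ∀ q ∈ Q, 2 ^ y < q)
    (hy : 8 * (Fintype.card J) ≤ 2 ^ y) :
    ∑ ω ∈ Fintype.piFinset (fun _ : J => Q ×ˢ Finset.Icc 1 U),
      ∑ j : J, (if (ω j).1 ∣ (ω j).2 then (1 : ℝ) else 0) ≤
      ((Q ×ˢ Finset.Icc 1 U).card : ℝ) ^ (Fintype.card J) / 8 := by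
  set M : ℝ := ((Q ×ˢ Finset.Icc 1 U).card : ℝ) ^ (Fintype.card J) with hM
  have hM0 : 0 ≤ M := by positivity
  rw [Finset.sum_comm]
  have e2 : ∀ j ∈ (Finset.univ : Finset J),
      ∑ ω ∈ Fintype.piFinset (fun _ : J => Q ×ˢ Finset.Icc 1 U),
        (if (ω j).1 ∣ (ω j).2 then (1 : ℝ) else 0) ≤ M / 2 ^ y := by
    intro j _
    have := sum_divs Q U y hQ hU hQ2 j
    rw [← Finset.sum_mul] at this
    rw [le_div_iff₀ (by positivity)]
    exact this
  refine le_trans (Finset.sum_le_sum e2) ?_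
  rw [Finset.sum_const, nsmul_eq_mul, Finset.card_univ]
  have hyr : 8 * (Fintype.card J : ℝ) ≤ 2 ^ y := by exact_mod_cast hy
  calc (Fintype.card J : ℝ) * (M / 2 ^ y) ≤ (2 ^ y / 8) * (M / 2 ^ y) := by
        apply mul_le_mul_of_nonneg_right _ (by positivity)
        linarith
    _ = M / 8 := by field_simp

/-- The main functional. -/
noncomputable def G1 {α : Type*} (A : Finset α) (b : α → ℕ) (T X : ℕ)
    (ω : Fin T × Fin 64 → ℕ × ℕ) : ℝ :=
  ∑ n ∈ Finset.Icc 2 X, ∑ B ∈ (Finset.univ : Finset (Finset (Fin T))).filter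
    (fun B => T ≤ 2 * B.card), (2 * (n : ℝ) ^ 2 /
      (A.card : ℝ) ^ (B ×ˢ (Finset.univ : Finset (Fin 64))).card) *
      hfun A b ω n (B ×ˢ (Finset.univ : Finset (Fin 64)))

lemma G1_term_nonneg {α : Type*} (A : Finset α) (b : α → ℕ) (T : ℕ)
    (ω : Fin T × Fin 64 → ℕ × ℕ) (n : ℕ) (B : Finset (Fin T)) :
    0 ≤ (2 * (n : ℝ) ^ 2 /
      (A.card : ℝ) ^ (B ×ˢ (Finset.univ : Finset (Fin 64))).card) *
      hfun A b ω n (B ×ˢ (Finset.univ : Finset (Fin 64))) :=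
  mul_nonneg (by positivity) (hfun_nonneg A b ω n _)

lemma G1_nonneg {α : Type*} (A : Finset α) (b : α → ℕ) (T X : ℕ)
    (ω : Fin T × Fin 64 → ℕ × ℕ) : 0 ≤ G1 A b T X ω :=
  Finset.sum_nonneg fun n _ => Finset.sum_nonneg fun B _ => G1_term_nonneg A b T ω n B

lemma avg_G1 {α : Type*} (A : Finset α) (hA : A.Nonempty)
    (b : α → ℕ) (T U X : ℕ) (Q : Finset ℕ)
    (ρ : ℕ → ℝ) (hρ0 : ∀ n, 2 ≤ n → n ≤ X → 0 ≤ ρ n) (hρ1 : ∀ n, 2 ≤ n → n ≤ X → ρ n ≤ 1)
    (hρ : ∀ n, 2 ≤ n → n ≤ X → ρ n ^ (16 * T) * (2 ^ (T + 4) * (n : ℝ) ^ 5) ≤ 1)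
    (hF : ∀ n, 2 ≤ n → n ≤ X → ∀ ν : ℕ, Nat.Coprime ν n →
      ∑ q ∈ Q.filter (fun q => ¬ q ∣ n), ∑ x ∈ Finset.Icc 1 U,
        ‖F A b n ((x : ZMod n) * (q : ZMod n)⁻¹ * (ν : ZMod n))‖ ^ 2
        ≤ (A.card : ℝ) ^ 2 * ((Q.card : ℝ) * U) * ρ n) :
    ∑ ω ∈ Fintype.piFinset (fun _ : Fin T × Fin 64 => Q ×ˢ Finset.Icc 1 U), G1 A b T X ω ≤
      ((Q ×ˢ Finset.Icc 1 U).card : ℝ) ^ (Fintype.card (Fin T × Fin 64)) / 8 := by
  set M : ℝ := ((Q ×ˢ Finset.Icc 1 U).card : ℝ) ^ (Fintype.card (Fin T × Fin 64)) with hM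
  have hM0 : 0 ≤ M := by positivity
  have hAr : (0 : ℝ) < A.card := by exact_mod_cast Finset.card_pos.mpr hA
  unfold G1
  rw [Finset.sum_comm]
  have e11 : ∀ n ∈ Finset.Icc 2 X,
      ∑ ω ∈ Fintype.piFinset (fun _ : Fin T × Fin 64 => Q ×ˢ Finset.Icc 1 U),
      ∑ B ∈ (Finset.univ : Finset (Finset (Fin T))).filter
        (fun B => T ≤ 2 * B.card), (2 * (n : ℝ) ^ 2 /
          (A.card : ℝ) ^ (B ×ˢ (Finset.univ : Finset (Fin 64))).card) *
          hfun A b ω n (B ×ˢ (Finset.univ : Finset (Fin 64))) ≤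
      M / 8 * (1 / (n : ℝ) ^ 2) := by
    intro n hn
    rw [Finset.mem_Icc] at hn
    obtain ⟨hn2, hnX⟩ := hn
    have hn0 : (0 : ℝ) < n := by
      have : 0 < n := by omega
      exact_mod_cast this
    have hρn := hρ0 n hn2 hnX
    rw [Finset.sum_comm]
    have e2 : ∀ B ∈ (Finset.univ : Finset (Finset (Fin T))).filter
        (fun B => T ≤ 2 * B.card),
        ∑ ω ∈ Fintype.piFinset (fun _ : Fin T × Fin 64 => Q ×ˢ Finset.Icc 1 U),
        (2 * (n : ℝ) ^ 2 / (A.card : ℝ) ^ (B ×ˢ (Finset.univ : Finset (Fin 64))).card) *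
          hfun A b ω n (B ×ˢ (Finset.univ : Finset (Fin 64))) ≤
          M * (2 * (n : ℝ) ^ 3 * ρ n ^ (16 * T)) := by
      intro B hB
      have hBc : T ≤ 2 * B.card := (Finset.mem_filter.mp hB).2
      have hIB : (B ×ˢ (Finset.univ : Finset (Fin 64))).card = 2 * (32 * B.card) := by
        rw [Finset.card_product, Finset.card_univ, Fintype.card_fin]; ring
      have e3 := hfun_avg A b U n Q (ρ n) hρn (hρ1 n hn2 hnX) (hF n hn2 hnX)
        (B ×ˢ (Finset.univ : Finset (Fin 64))) (32 * B.card) (16 * T) hIB (by omega)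
      rw [← Finset.mul_sum]
      calc (2 * (n : ℝ) ^ 2 / (A.card : ℝ) ^ (B ×ˢ (Finset.univ : Finset (Fin 64))).card) *
            ∑ ω ∈ Fintype.piFinset (fun _ : Fin T × Fin 64 => Q ×ˢ Finset.Icc 1 U),
              hfun A b ω n (B ×ˢ (Finset.univ : Finset (Fin 64)))
          ≤ (2 * (n : ℝ) ^ 2 / (A.card : ℝ) ^ (B ×ˢ (Finset.univ : Finset (Fin 64))).card) *
            (n * (M * (A.card : ℝ) ^ (B ×ˢ (Finset.univ : Finset (Fin 64))).card *
              ρ n ^ (16 * T))) :=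
            mul_le_mul_of_nonneg_left e3 (by positivity)
        _ = M * (2 * (n : ℝ) ^ 3 * ρ n ^ (16 * T)) := by
            have h0 : (A.card : ℝ) ^ (B ×ˢ (Finset.univ : Finset (Fin 64))).card ≠ 0 :=
              (pow_pos hAr _).ne'
            generalize (A.card : ℝ) ^ (B ×ˢ (Finset.univ : Finset (Fin 64))).card = a at h0 ⊢
            field_simp
    refine le_trans (Finset.sum_le_sum e2) ?_
    rw [Finset.sum_const, nsmul_eq_mul]
    have hc : (((Finset.univ : Finset (Finset (Fin T))).filter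
        (fun B => T ≤ 2 * B.card)).card : ℝ) ≤ 2 ^ T := by
      have h1 := Finset.card_filter_le (Finset.univ : Finset (Finset (Fin T)))
        (fun B => T ≤ 2 * B.card)
      have h2 : (Finset.univ : Finset (Finset (Fin T))).card = 2 ^ T := by
        rw [Finset.card_univ, Fintype.card_finset, Fintype.card_fin]
      rw [h2] at h1
      exact_mod_cast h1
    have hk := hρ n hn2 hnX
    calc _ ≤ (2 : ℝ) ^ T * (M * (2 * (n : ℝ) ^ 3 * ρ n ^ (16 * T))) :=
          mul_le_mul_of_nonneg_right hc (by positivity)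
      _ = M / 8 * (1 / (n : ℝ) ^ 2) * (ρ n ^ (16 * T) * (2 ^ (T + 4) * (n : ℝ) ^ 5)) := by
          rw [pow_add]
          generalize ρ n ^ (16 * T) = r
          field_simp
          ring
      _ ≤ M / 8 * (1 / (n : ℝ) ^ 2) * 1 := mul_le_mul_of_nonneg_left hk (by positivity)
      _ = M / 8 * (1 / (n : ℝ) ^ 2) := mul_one _
  refine le_trans (Finset.sum_le_sum e11) ?_
  rw [← Finset.mul_sum]
  calc M / 8 * ∑ n ∈ Finset.Icc 2 X, (1 : ℝ) / (n : ℝ) ^ 2 ≤ M / 8 * 1 :=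
        mul_le_mul_of_nonneg_left (sum_inv_sq X) (by positivity)
    _ = M / 8 := mul_one _

/-- What small `G1` says. -/
lemma G1_lt_one {α : Type*} (A : Finset α) (hA : A.Nonempty) (b : α → ℕ) (T X : ℕ)
    (ω : Fin T × Fin 64 → ℕ × ℕ) (hg1 : G1 A b T X ω < 1) (n : ℕ) (hn2 : 2 ≤ n) (hnX : n ≤ X)
    (B : Finset (Fin T)) (hB : T ≤ 2 * B.card)
    (hdiv : ∀ j ∈ B ×ˢ (Finset.univ : Finset (Fin 64)), ¬ (ω j).1 ∣ n) :
    Tsum A b n (B ×ˢ (Finset.univ : Finset (Fin 64))) (fun j => (ω j).1) (fun j => (ω j).2)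
      ≤ (A.card : ℝ) ^ (B ×ˢ (Finset.univ : Finset (Fin 64))).card / (2 * (n : ℝ) ^ 2) := by
  have hAr : (0 : ℝ) < A.card := by exact_mod_cast Finset.card_pos.mpr hA
  have hn0 : (0 : ℝ) < n := by
    have : 0 < n := by omega
    exact_mod_cast this
  have h1 : (2 * (n : ℝ) ^ 2 / (A.card : ℝ) ^ (B ×ˢ (Finset.univ : Finset (Fin 64))).card) *
      hfun A b ω n (B ×ˢ (Finset.univ : Finset (Fin 64))) ≤ G1 A b T X ω := by
    have h2 : ∑ B ∈ (Finset.univ : Finset (Finset (Fin T))).filter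
        (fun B => T ≤ 2 * B.card), (2 * (n : ℝ) ^ 2 /
          (A.card : ℝ) ^ (B ×ˢ (Finset.univ : Finset (Fin 64))).card) *
          hfun A b ω n (B ×ˢ (Finset.univ : Finset (Fin 64))) ≤ G1 A b T X ω :=
      Finset.single_le_sum (f := fun n : ℕ => ∑ B ∈ (Finset.univ : Finset (Finset (Fin T))).filter
        (fun B => T ≤ 2 * B.card), (2 * (n : ℝ) ^ 2 /
          (A.card : ℝ) ^ (B ×ˢ (Finset.univ : Finset (Fin 64))).card) *
          hfun A b ω n (B ×ˢ (Finset.univ : Finset (Fin 64))))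
        (fun m _ => Finset.sum_nonneg fun B _ => G1_term_nonneg A b T ω m B)
        (Finset.mem_Icc.mpr ⟨hn2, hnX⟩)
    have h3 : (2 * (n : ℝ) ^ 2 / (A.card : ℝ) ^ (B ×ˢ (Finset.univ : Finset (Fin 64))).card) *
        hfun A b ω n (B ×ˢ (Finset.univ : Finset (Fin 64))) ≤
        ∑ B ∈ (Finset.univ : Finset (Finset (Fin T))).filter
        (fun B => T ≤ 2 * B.card), (2 * (n : ℝ) ^ 2 /
          (A.card : ℝ) ^ (B ×ˢ (Finset.univ : Finset (Fin 64))).card) *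
          hfun A b ω n (B ×ˢ (Finset.univ : Finset (Fin 64))) :=
      Finset.single_le_sum (f := fun B : Finset (Fin T) => (2 * (n : ℝ) ^ 2 /
          (A.card : ℝ) ^ (B ×ˢ (Finset.univ : Finset (Fin 64))).card) *
          hfun A b ω n (B ×ˢ (Finset.univ : Finset (Fin 64))))
        (fun B _ => G1_term_nonneg A b T ω n B)
        (Finset.mem_filter.mpr ⟨Finset.mem_univ B, hB⟩)
    exact le_trans h3 h2
  have h4 : hfun A b ω n (B ×ˢ (Finset.univ : Finset (Fin 64))) =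
      Tsum A b n (B ×ˢ (Finset.univ : Finset (Fin 64)))
      (fun j => (ω j).1) (fun j => (ω j).2) := by
    unfold Tsum hfun
    apply Finset.sum_congr rfl
    intro ν _
    apply Finset.prod_congr rfl
    intro j hj
    rw [if_pos (hdiv j hj)]
  have h5 := lt_of_le_of_lt h1 hg1
  have hp : 0 < (A.card : ℝ) ^ (B ×ˢ (Finset.univ : Finset (Fin 64))).card := pow_pos hAr _
  rw [h4, div_mul_eq_mul_div, div_lt_one hp] at h5
  rw [le_div_iff₀ (by positivity)]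
  linarith

end Choice

open Choice in
theorem exists_good_choice {α : Type*} [DecidableEq α] (A : Finset α) (hA : A.Nonempty)
    (b : α → ℕ) (T y U X : ℕ) (Q : Finset ℕ) (hQ : ∀ q ∈ Q, q.Prime ∧ 2 ^ y < q)
    (hT : 1 ≤ T) (hcard : 8 * (64 * T) ^ 2 ≤ Q.card) (hU : 0 < U) (hy : 8 * (64 * T) ≤ 2 ^ y)
    (ρ : ℕ → ℝ) (hρ0 : ∀ n, 2 ≤ n → n ≤ X → 0 ≤ ρ n) (hρ1 : ∀ n, 2 ≤ n → n ≤ X → ρ n ≤ 1)
    (hρ : ∀ n, 2 ≤ n → n ≤ X → ρ n ^ (16 * T) * (2 ^ (T + 4) * (n : ℝ) ^ 5) ≤ 1)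
    (hF : ∀ n, 2 ≤ n → n ≤ X → ∀ ν : ℕ, Nat.Coprime ν n →
      ∑ q ∈ Q.filter (fun q => ¬ q ∣ n), ∑ x ∈ Finset.Icc 1 U,
        ‖F A b n ((x : ZMod n) * (q : ZMod n)⁻¹ * (ν : ZMod n))‖ ^ 2
        ≤ (A.card : ℝ) ^ 2 * ((Q.card : ℝ) * U) * ρ n) :
    ∃ q x : Fin T × Fin 64 → ℕ, Function.Injective q ∧ (∀ j, q j ∈ Q) ∧
      (∀ j, 1 ≤ x j ∧ x j ≤ U) ∧ (∀ j, ¬ q j ∣ x j) ∧
      ∀ n, 2 ≤ n → n ≤ X → ∀ B : Finset (Fin T), T ≤ 2 * B.card →
        (∀ j ∈ B ×ˢ (Finset.univ : Finset (Fin 64)), ¬ q j ∣ n) →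
        Tsum A b n (B ×ˢ (Finset.univ : Finset (Fin 64))) q x
          ≤ (A.card : ℝ) ^ (B ×ˢ (Finset.univ : Finset (Fin 64))).card / (2 * (n : ℝ) ^ 2) := by
  have hJ : Fintype.card (Fin T × Fin 64) = 64 * T := by
    rw [Fintype.card_prod, Fintype.card_fin, Fintype.card_fin, mul_comm]
  have hQ0 : 0 < Q.card := lt_of_lt_of_le (by positivity) hcard
  have hS1 := avg_G1 A hA b T U X Q ρ hρ0 hρ1 hρ hF
  have hS2 := avg_pairs (J := Fin T × Fin 64) Q U hQ0 hU (by rw [hJ]; exact hcard)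
  have hS3 := avg_divs (J := Fin T × Fin 64) Q U y hQ0 hU (fun q hq => (hQ q hq).2)
    (by rw [hJ]; exact hy)
  set D := Q ×ˢ Finset.Icc 1 U with hD
  set M : ℝ := (D.card : ℝ) ^ (Fintype.card (Fin T × Fin 64)) with hM
  have hDc : (0 : ℝ) < D.card := by
    rw [hD, Finset.card_product]
    have h1 : (0 : ℝ) < Q.card := by exact_mod_cast hQ0
    have h2 : (0 : ℝ) < U := by exact_mod_cast hU
    have h3 : (Finset.Icc 1 U).card = U := by simp
    rw [h3]
    push_cast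
    positivity
  have hMpos : 0 < M := pow_pos hDc _
  have hΩc : ((Fintype.piFinset (fun _ : Fin T × Fin 64 => D)).card : ℝ) = M := by
    rw [Fintype.card_piFinset, hM, Finset.prod_const, Finset.card_univ]
    push_cast
    rfl
  have hlt : ∑ ω ∈ Fintype.piFinset (fun _ : Fin T × Fin 64 => D), (G1 A b T X ω +
      ∑ p ∈ (Finset.univ : Finset ((Fin T × Fin 64) × (Fin T × Fin 64))).filter
        (fun p => p.1 ≠ p.2), (if (ω p.1).1 = (ω p.2).1 then (1 : ℝ) else 0) +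
      ∑ j : Fin T × Fin 64, (if (ω j).1 ∣ (ω j).2 then (1 : ℝ) else 0)) <
      ∑ ω ∈ Fintype.piFinset (fun _ : Fin T × Fin 64 => D), (1 : ℝ) := by
    rw [Finset.sum_add_distrib, Finset.sum_add_distrib, Finset.sum_const, nsmul_eq_mul, hΩc]
    linarith
  obtain ⟨ω, hω, hω1⟩ := Finset.exists_lt_of_sum_lt hlt
  have hG1 := G1_nonneg A b T X ω
  have hG2 : 0 ≤ ∑ p ∈ (Finset.univ : Finset ((Fin T × Fin 64) × (Fin T × Fin 64))).filter
        (fun p => p.1 ≠ p.2), (if (ω p.1).1 = (ω p.2).1 then (1 : ℝ) else 0) :=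
    Finset.sum_nonneg fun p _ => by split_ifs <;> norm_num
  have hG3 : 0 ≤ ∑ j : Fin T × Fin 64, (if (ω j).1 ∣ (ω j).2 then (1 : ℝ) else 0) :=
    Finset.sum_nonneg fun p _ => by split_ifs <;> norm_num
  have hωD : ∀ j, (ω j).1 ∈ Q ∧ (ω j).2 ∈ Finset.Icc 1 U := by
    intro j
    have := Fintype.mem_piFinset.mp hω j
    rw [hD, Finset.mem_product] at this
    exact this
  refine ⟨fun j => (ω j).1, fun j => (ω j).2, ?_, fun j => (hωD j).1,
    fun j => Finset.mem_Icc.mp (hωD j).2, ?_, ?_⟩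
  · intro i j hij
    by_contra hne
    have h1 := Finset.single_le_sum (f := fun p : (Fin T × Fin 64) × (Fin T × Fin 64) =>
        (if (ω p.1).1 = (ω p.2).1 then (1 : ℝ) else 0))
        (s := (Finset.univ : Finset ((Fin T × Fin 64) ×
        (Fin T × Fin 64))).filter (fun p => p.1 ≠ p.2))
        (fun p _ => by split_ifs <;> norm_num)
        (Finset.mem_filter.mpr ⟨Finset.mem_univ (i, j), hne⟩)
    simp only at h1 hij
    rw [if_pos hij] at h1
    linarith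
  · intro j hj
    have h1 := Finset.single_le_sum (f := fun j : Fin T × Fin 64 =>
        (if (ω j).1 ∣ (ω j).2 then (1 : ℝ) else 0))
        (fun p _ => by split_ifs <;> norm_num) (Finset.mem_univ j)
    simp only at h1 hj
    rw [if_pos hj] at h1
    linarith
  · intro n hn2 hnX B hB hdiv
    exact G1_lt_one A hA b T X ω (by linarith) n hn2 hnX B hB hdiv

end Vale.Agent.P012
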