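import Vale.Agent.P012.Defs

/-! Task B: collision counts. -/

namespace Vale.Agent.P012

open Finset

/-- the fibre of collisions with a fixed second entry -/
theorem coll_eq_sum {α : Type*} (A : Finset α) (b : α → ℕ) (n : ℕ) :
    coll A b n = ∑ T ∈ A, (A.filter (fun S => b S ≡ b T [MOD n])).card := by
  unfold coll
  rw [Finset.card_filter, Finset.sum_product_right]
  refine Finset.sum_congr rfl (fun T _ => ?_)
  rw [Finset.card_filter]

theorem two_mul_card_filter_mem_le (P : Finset ℕ) (p : ℕ) :
    2 * (P.powerset.filter (fun S => p ∈ S)).card ≤ 2 ^ P.card := by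
  have h1 : (P.powerset.filter (fun S => p ∈ S)).card ≤
      (P.powerset.filter (fun S => ¬ p ∈ S)).card := by
    apply Finset.card_le_card_of_injOn (fun S => S.erase p)
    · intro S hS
      simp only [coe_filter, mem_powerset, Set.mem_ofPred_eq] at hS ⊢
      exact ⟨(Finset.erase_subset _ _).trans hS.1, Finset.notMem_erase _ _⟩
    · intro S hS T hT hST
      simp only [coe_filter, mem_powerset, Set.mem_ofPred_eq] at hS hT
      have hST' : S.erase p = T.erase p := hST
      rw [← Finset.insert_erase hS.2, hST', Finset.insert_erase hT.2]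
  have h2 := Finset.card_filter_add_card_filter_not (s := P.powerset) (fun S => p ∈ S)
  rw [Finset.card_powerset] at h2
  omega

theorem prime_dvd_bprod_iff {S : Finset ℕ} (hS : ∀ p ∈ S, p.Prime) {p : ℕ} (hp : p.Prime) :
    p ∣ bprod S ↔ p ∈ S := by
  unfold bprod
  rw [Prime.dvd_finsetProd_iff hp.prime]
  constructor
  · rintro ⟨q, hq, hpq⟩
    rwa [(Nat.prime_dvd_prime_iff_eq hp (hS q hq)).mp hpq]
  · intro h
    exact ⟨p, h, dvd_rfl⟩

/-- Toggle the prime 2. -/
theorem coll_le_three_quarters (P : Finset ℕ) (hP : ∀ p ∈ P, p.Prime) (h2 : 2 ∈ P) (n : ℕ)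
    (hn : 2 ≤ n) : 4 * coll P.powerset bprod n ≤ 3 * 4 ^ P.card := by
  set P0 := P.erase 2 with hP0
  have hcard : P.card = P0.card + 1 := by
    rw [hP0, Finset.card_erase_add_one h2]
  have hPins : P = insert 2 P0 := (Finset.insert_erase h2).symm
  have h2P0 : 2 ∉ P0 := Finset.notMem_erase _ _
  -- bound for each fibre
  have hfib : ∀ T ∈ P.powerset,
      2 * (P.powerset.filter (fun S => bprod S ≡ bprod T [MOD n])).card ≤ 3 * 2 ^ P0.card := by
    intro T _
    set c := bprod T
    set X := P0.powerset.filter (fun S => bprod S ≡ c [MOD n]) with hX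
    set Y := P0.powerset.filter (fun S => 2 * bprod S ≡ c [MOD n]) with hY
    have hle : (P.powerset.filter (fun S => bprod S ≡ c [MOD n])).card ≤ X.card + Y.card := by
      have hsub : P.powerset.filter (fun S => bprod S ≡ c [MOD n]) ⊆
          X ∪ Y.image (insert 2) := by
        intro S hS
        rw [Finset.mem_filter, hPins, Finset.powerset_insert, Finset.mem_union] at hS
        obtain ⟨hS1, hS2⟩ := hS
        rw [Finset.mem_union]
        rcases hS1 with hS1 | hS1
        · left
          rw [hX, Finset.mem_filter]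
          exact ⟨hS1, hS2⟩
        · right
          rw [Finset.mem_image] at hS1 ⊢
          obtain ⟨S0, hS0, rfl⟩ := hS1
          refine ⟨S0, ?_, rfl⟩
          rw [hY, Finset.mem_filter]
          refine ⟨hS0, ?_⟩
          have h2S0 : 2 ∉ S0 := fun h => h2P0 (Finset.mem_powerset.mp hS0 h)
          have : bprod (insert 2 S0) = 2 * bprod S0 := by
            unfold bprod
            rw [Finset.prod_insert h2S0]
          rwa [this] at hS2
      calc _ ≤ (X ∪ Y.image (insert 2)).card := Finset.card_le_card hsub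
        _ ≤ X.card + (Y.image (insert 2)).card := Finset.card_union_le _ _
        _ ≤ X.card + Y.card := by
            have := Finset.card_image_le (s := Y) (f := insert 2)
            omega
    have hXY : X.card + Y.card = (X ∪ Y).card + (X ∩ Y).card :=
      (Finset.card_union_add_card_inter X Y).symm
    have hU : (X ∪ Y).card ≤ 2 ^ P0.card := by
      rw [← Finset.card_powerset]
      apply Finset.card_le_card
      apply Finset.union_subset <;> exact Finset.filter_subset _ _
    have hI : 2 * (X ∩ Y).card ≤ 2 ^ P0.card := by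
      obtain ⟨p, hp, hpn⟩ := Nat.exists_prime_and_dvd (n := n) (by omega)
      have hsub : X ∩ Y ⊆ P0.powerset.filter (fun S => p ∈ S) := by
        intro S hS
        rw [Finset.mem_inter, hX, hY, Finset.mem_filter, Finset.mem_filter] at hS
        obtain ⟨⟨hS1, hS2⟩, -, hS3⟩ := hS
        rw [Finset.mem_filter]
        refine ⟨hS1, ?_⟩
        have h3 : 2 * bprod S ≡ bprod S [MOD n] := hS3.trans hS2.symm
        have h4 : bprod S + bprod S ≡ 0 + bprod S [MOD n] := by
          rw [zero_add, ← two_mul]; exact h3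
        have h5 : bprod S ≡ 0 [MOD n] := Nat.ModEq.add_right_cancel' _ h4
        have h6 : n ∣ bprod S := (Nat.modEq_zero_iff_dvd).mp h5
        have hSP : ∀ q ∈ S, q.Prime := fun q hq =>
          hP q (Finset.mem_of_mem_erase (Finset.mem_powerset.mp hS1 hq))
        exact (prime_dvd_bprod_iff hSP hp).mp (hpn.trans h6)
      calc 2 * (X ∩ Y).card ≤ 2 * (P0.powerset.filter (fun S => p ∈ S)).card :=
            Nat.mul_le_mul_left _ (Finset.card_le_card hsub)
        _ ≤ _ := two_mul_card_filter_mem_le P0 p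
    omega
  rw [coll_eq_sum, hcard]
  have hsum : ∑ T ∈ P.powerset,
      2 * (P.powerset.filter (fun S => bprod S ≡ bprod T [MOD n])).card ≤
      ∑ _T ∈ P.powerset, 3 * 2 ^ P0.card := Finset.sum_le_sum hfib
  rw [← Finset.mul_sum, Finset.sum_const, Finset.card_powerset, smul_eq_mul, hcard] at hsum
  have e : (4:ℕ) ^ (P0.card + 1) = 4 * (2 ^ P0.card * 2 ^ P0.card) := by
    rw [pow_succ, mul_comm, ← mul_pow]
    norm_num
  rw [e]
  rw [pow_succ] at hsum
  nlinarith

theorem bprod_le_pow {S : Finset ℕ} {z : ℕ} (hz : ∀ p ∈ S, p ≤ z) : bprod S ≤ z ^ S.card := by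
  unfold bprod
  exact Finset.prod_le_pow_card _ _ _ hz

theorem bprod_inj {S T : Finset ℕ} (hS : ∀ p ∈ S, p.Prime) (hT : ∀ p ∈ T, p.Prime)
    (h : bprod S = bprod T) : S = T := by
  ext p
  constructor
  · intro hp
    have := (prime_dvd_bprod_iff hS (hS p hp)).mpr hp
    rw [h] at this
    exact (prime_dvd_bprod_iff hT (hS p hp)).mp this
  · intro hp
    have := (prime_dvd_bprod_iff hT (hT p hp)).mpr hp
    rw [← h] at this
    exact (prime_dvd_bprod_iff hS (hT p hp)).mp this

theorem coll_le_pow_aux (P R : Finset ℕ) (L n : ℕ) (hR : R ⊆ P) (hRL : L ≤ R.card)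
    (hinj : ∀ S ⊆ P, ∀ T ⊆ P, bprod S ≡ bprod T [MOD n] → S \ R = T \ R → S = T) :
    2 ^ L * coll P.powerset bprod n ≤ 4 ^ P.card := by
  have hfib : ∀ T ∈ P.powerset,
      2 ^ L * (P.powerset.filter (fun S => bprod S ≡ bprod T [MOD n])).card ≤ 2 ^ P.card := by
    intro T _
    have h1 : (P.powerset.filter (fun S => bprod S ≡ bprod T [MOD n])).card ≤
        (P \ R).powerset.card := by
      apply Finset.card_le_card_of_injOn (fun S => S \ R)
      · intro S hS
        simp only [coe_filter, mem_powerset, Set.mem_ofPred_eq, coe_powerset, Set.mem_preimage,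
          Set.mem_powerset_iff, coe_subset] at hS ⊢
        exact Finset.sdiff_subset_sdiff hS.1 le_rfl
      · intro S hS S' hS' hSS
        simp only [coe_filter, mem_powerset, Set.mem_ofPred_eq] at hS hS'
        exact hinj S hS.1 S' hS'.1 (hS.2.trans hS'.2.symm) hSS
    rw [Finset.card_powerset, Finset.card_sdiff_of_subset hR] at h1
    calc 2 ^ L * (P.powerset.filter (fun S => bprod S ≡ bprod T [MOD n])).card
        ≤ 2 ^ R.card * 2 ^ (P.card - R.card) :=
          Nat.mul_le_mul (Nat.pow_le_pow_right (by norm_num) hRL) h1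
      _ = 2 ^ P.card := by
          rw [← pow_add]
          congr 1
          have := Finset.card_le_card hR
          omega
  rw [coll_eq_sum, Finset.mul_sum]
  calc _ ≤ ∑ _T ∈ P.powerset, 2 ^ P.card := Finset.sum_le_sum hfib
    _ = 4 ^ P.card := by
        rw [Finset.sum_const, Finset.card_powerset, smul_eq_mul, ← mul_pow]
        norm_num

theorem coll_le_pow (P : Finset ℕ) (hP : ∀ p ∈ P, p.Prime) (z L n : ℕ) (hz : ∀ p ∈ P, p ≤ z)
    (hn : 1 ≤ n) (hL : z ^ (2 * L) ≤ n) (hcard : 2 * L ≤ P.card) :
    2 ^ L * coll P.powerset bprod n ≤ 4 ^ P.card := by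
  have hprime : ∀ S ⊆ P, ∀ p ∈ S, p.Prime := fun S hS p hp => hP p (hS hp)
  set Pn := P.filter (fun p => p ∣ n) with hPn
  rcases le_or_gt L Pn.card with hA | hB
  · -- case A
    apply coll_le_pow_aux P Pn L n (Finset.filter_subset _ _) hA
    intro S hS T hT hmod hsd
    ext p
    by_cases hp : p ∈ Pn
    · have hpP : p ∈ P := (Finset.mem_filter.mp hp).1
      have hpn : p ∣ n := (Finset.mem_filter.mp hp).2
      have hmodp : bprod S ≡ bprod T [MOD p] := hmod.of_dvd hpn
      rw [← prime_dvd_bprod_iff (hprime S hS) (hP p hpP),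
        ← prime_dvd_bprod_iff (hprime T hT) (hP p hpP)]
      exact hmodp.dvd_iff dvd_rfl
    · constructor
      · intro h
        have : p ∈ S \ Pn := Finset.mem_sdiff.mpr ⟨h, hp⟩
        rw [hsd] at this
        exact (Finset.mem_sdiff.mp this).1
      · intro h
        have : p ∈ T \ Pn := Finset.mem_sdiff.mpr ⟨h, hp⟩
        rw [← hsd] at this
        exact (Finset.mem_sdiff.mp this).1
  · -- case B
    have hLc : L ≤ (P \ Pn).card := by
      have h1 := Finset.card_sdiff_of_subset (Finset.filter_subset (fun p => p ∣ n) P)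
      rw [← hPn] at h1
      omega
    obtain ⟨R, hRsub, hRcard⟩ := Finset.exists_subset_card_eq hLc
    have hRP : R ⊆ P := hRsub.trans Finset.sdiff_subset
    apply coll_le_pow_aux P R L n hRP hRcard.ge
    intro S hS T hT hmod hsd
    -- split
    have hsplit : ∀ S : Finset ℕ, bprod S =
        bprod ((S \ R) \ Pn) * (bprod ((S \ R) ∩ Pn) * bprod (S ∩ R)) := by
      intro S
      unfold bprod
      have h1 : ∏ p ∈ S, p = (∏ p ∈ S ∩ R, p) * ∏ p ∈ S \ R, p :=
        (Finset.prod_inter_mul_prod_sdiff S R _).symm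
      have h2 : ∏ p ∈ S \ R, p = (∏ p ∈ (S \ R) ∩ Pn, p) * ∏ p ∈ (S \ R) \ Pn, p :=
        (Finset.prod_inter_mul_prod_sdiff (S \ R) Pn _).symm
      rw [h1, h2]
      ring
    rw [hsplit S, hsplit T, hsd] at hmod
    have hcop : Nat.gcd n (bprod ((T \ R) \ Pn)) = 1 := by
      unfold bprod
      apply Nat.Coprime.prod_right
      intro p hp
      rw [Finset.mem_sdiff] at hp
      have hpP : p ∈ P := hT (Finset.mem_sdiff.mp hp.1).1
      have hnd : ¬ p ∣ n := fun h => hp.2 (Finset.mem_filter.mpr ⟨hpP, h⟩)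
      exact ((Nat.Prime.coprime_iff_not_dvd (hP p hpP)).mpr hnd).symm
    have hmod2 := Nat.ModEq.cancel_left_of_coprime hcop hmod
    have hz2 : 2 ≤ z := by
      have hPne : P.Nonempty := by
        rw [← Finset.card_pos]; omega
      obtain ⟨p, hp⟩ := hPne
      exact (hP p hp).two_le.trans (hz p hp)
    have hlt : ∀ S ⊆ P, bprod ((T \ R) ∩ Pn) * bprod (S ∩ R) < n := by
      intro S hS
      have h1 : bprod ((T \ R) ∩ Pn) ≤ z ^ (L - 1) := by
        calc bprod ((T \ R) ∩ Pn) ≤ z ^ ((T \ R) ∩ Pn).card :=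
              bprod_le_pow (fun p hp => hz p (Finset.mem_filter.mp (Finset.mem_inter.mp hp).2).1)
          _ ≤ z ^ (L - 1) := by
              apply Nat.pow_le_pow_right (by omega)
              have : ((T \ R) ∩ Pn).card ≤ Pn.card := Finset.card_le_card Finset.inter_subset_right
              omega
      have h2 : bprod (S ∩ R) ≤ z ^ L := by
        calc bprod (S ∩ R) ≤ z ^ (S ∩ R).card :=
              bprod_le_pow (fun p hp => hz p (hRP (Finset.mem_inter.mp hp).2))
          _ ≤ z ^ L := by
              apply Nat.pow_le_pow_right (by omega)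
              have : (S ∩ R).card ≤ R.card := Finset.card_le_card Finset.inter_subset_right
              omega
      calc bprod ((T \ R) ∩ Pn) * bprod (S ∩ R) ≤ z ^ (L - 1) * z ^ L := Nat.mul_le_mul h1 h2
        _ = z ^ (L - 1 + L) := (pow_add _ _ _).symm
        _ < z ^ (2 * L) := Nat.pow_lt_pow_right (by omega) (by omega)
        _ ≤ n := hL
    have heq := Nat.ModEq.eq_of_lt_of_lt hmod2 (hlt S hS) (hlt T hT)
    have hpos : 0 < bprod ((T \ R) ∩ Pn) := by
      unfold bprod
      apply Finset.prod_pos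
      intro p hp
      exact (hP p (Finset.mem_filter.mp (Finset.mem_inter.mp hp).2).1).pos
    have heq2 := Nat.eq_of_mul_eq_mul_left hpos heq
    have heq3 : S ∩ R = T ∩ R := by
      apply bprod_inj _ _ heq2
      · exact fun p hp => hP p (hS (Finset.mem_inter.mp hp).1)
      · exact fun p hp => hP p (hT (Finset.mem_inter.mp hp).1)
    rw [← Finset.sdiff_union_inter S R, ← Finset.sdiff_union_inter T R, hsd, heq3]

end Vale.Agent.P012
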