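import Mathlib

/-!
Common definitions for P012 (short Egyptian fractions, N(b) ≪ log log b).
-/

namespace Vale.Agent.P012

open Finset

/-- `Covers M X K`: every residue class modulo every `1 ≤ m ≤ X` contains a sum of
at least one and at most `K` distinct divisors of `M`. -/
def Covers (M X K : ℕ) : Prop :=
  ∀ m : ℕ, 1 ≤ m → m ≤ X → ∀ c : ℕ,
    ∃ D : Finset ℕ, D.Nonempty ∧ D ⊆ M.divisors ∧ D.card ≤ K ∧ (∑ d ∈ D, d) ≡ c [MOD m]

/-- The additive character `t ↦ exp (2 π i t / n)` on `ZMod n`, written without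
`NeZero n`. -/
noncomputable def psi (n : ℕ) (t : ZMod n) : ℂ :=
  Complex.exp (2 * Real.pi * Complex.I * ((t.val : ℂ) / (n : ℂ)))

/-- The exponential sum `∑_{S ∈ A} psi_n (t * b S)`. -/
noncomputable def F {α : Type*} (A : Finset α) (b : α → ℕ) (n : ℕ) (t : ZMod n) : ℂ :=
  ∑ S ∈ A, psi n (t * (b S : ZMod n))

/-- Number of pairs in `A × A` whose `b`-values agree modulo `n`. -/
def coll {α : Type*} (A : Finset α) (b : α → ℕ) (n : ℕ) : ℕ :=
  ((A ×ˢ A).filter (fun p => b p.1 ≡ b p.2 [MOD n])).card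

/-- The sum over residues `ν` coprime to `n` of `∏_{j ∈ I} |F(x_j q_j⁻¹ ν)|`. -/
noncomputable def Tsum {α J : Type*} (A : Finset α) (b : α → ℕ) (n : ℕ) (I : Finset J)
    (q x : J → ℕ) : ℝ :=
  ∑ ν ∈ (Finset.range n).filter (fun ν => Nat.Coprime ν n),
    ∏ j ∈ I, ‖F A b n ((x j : ZMod n) * (q j : ZMod n)⁻¹ * (ν : ZMod n))‖

/-- The set of the primes `≤ z`. -/
def primesLE (z : ℕ) : Finset ℕ := (Finset.range (z + 1)).filter Nat.Prime

/-- product of a finset of numbers -/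
def bprod (S : Finset ℕ) : ℕ := ∏ p ∈ S, p

end Vale.Agent.P012
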