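import Vale.Agent.P012.Defs

/-! Task I: the lower bound. -/

namespace Vale.Agent.P012

open Finset

/-- If `∑_{n∈D} 1/n < A/B` then the gap is at least `1/(2KB)^{2^{|D|}}` for every `K ≥ |D|`, `K ≥ 1`.
Induction on `|D|`, removing the minimum `n` of `D`: either the gap is `≥ 1/(2B)` or
`n ≤ 2 K B`. -/
theorem gap_lower (K : ℕ) (hK : 1 ≤ K) : ∀ (k : ℕ), k ≤ K → ∀ (D : Finset ℕ), D.card = k →
    (∀ n ∈ D, 1 ≤ n) → ∀ A B : ℕ, 1 ≤ B → (∑ n ∈ D, (1 : ℚ) / (n : ℚ)) < (A : ℚ) / B →
      (1 : ℚ) / ((2 * K * B : ℕ) : ℚ) ^ (2 ^ k) ≤ (A : ℚ) / B - ∑ n ∈ D, (1 : ℚ) / (n : ℚ) := by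
  intro k
  induction k with
  | zero =>
    intro _ D hD _ A B hB hlt
    rw [Finset.card_eq_zero] at hD
    subst hD
    have hBq : (0 : ℚ) < B := by exact_mod_cast hB
    have hA : 0 < A := by
      rcases Nat.eq_zero_or_pos A with h | h
      · subst h; simp at hlt
      · exact h
    have hAq : (1 : ℚ) ≤ A := by exact_mod_cast hA
    have hKq : (1 : ℚ) ≤ K := by exact_mod_cast hK
    simp only [Finset.sum_empty, sub_zero, pow_zero, pow_one]
    push_cast
    rw [div_le_div_iff₀ (by positivity) hBq]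
    have h1 : (1 : ℚ) ≤ A * (2 * K) := by nlinarith
    nlinarith
  | succ k ih =>
    intro hkK D hD hD1 A B hB hlt
    have hBq : (0 : ℚ) < B := by exact_mod_cast hB
    have hKq : (1 : ℚ) ≤ K := by exact_mod_cast hK
    have hBq1 : (1 : ℚ) ≤ B := by exact_mod_cast hB
    have hne : D.Nonempty := by
      rw [← Finset.card_pos]; omega
    have hsum0 : ∀ D' : Finset ℕ, (0 : ℚ) ≤ ∑ n ∈ D', (1 : ℚ) / (n : ℚ) := fun D' =>
      Finset.sum_nonneg (fun n _ => by positivity)
    have hA : 0 < A := by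
      rcases Nat.eq_zero_or_pos A with h | h
      · subst h
        have := hsum0 D
        simp at hlt
        simp at this
        linarith
      · exact h
    have hAq : (1 : ℚ) ≤ A := by exact_mod_cast hA
    have hbase : (1 : ℚ) ≤ 2 * K * B := by nlinarith
    by_cases hgap : 1 / (2 * (B : ℚ)) ≤ (A : ℚ) / B - ∑ n ∈ D, (1 : ℚ) / (n : ℚ)
    · refine le_trans ?_ hgap
      push_cast
      apply one_div_le_one_div_of_le (by positivity)
      calc 2 * (B : ℚ) ≤ 2 * K * B := by nlinarith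
        _ = (2 * K * B) ^ 1 := (pow_one _).symm
        _ ≤ (2 * K * B) ^ (2 ^ (k + 1)) := pow_le_pow_right₀ hbase Nat.one_le_two_pow
    · push Not at hgap
      set n := D.min' hne with hn
      have hnD : n ∈ D := Finset.min'_mem D hne
      have hn1 : 1 ≤ n := hD1 n hnD
      have hnq : (0 : ℚ) < n := by exact_mod_cast hn1
      have hsum_le : ∑ m ∈ D, (1 : ℚ) / (m : ℚ) ≤ K / n := by
        calc ∑ m ∈ D, (1 : ℚ) / (m : ℚ) ≤ ∑ m ∈ D, (1 : ℚ) / (n : ℚ) := by
              apply Finset.sum_le_sum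
              intro m hm
              apply one_div_le_one_div_of_le hnq
              exact_mod_cast Finset.min'_le D m hm
          _ = (k + 1 : ℕ) * (1 / (n : ℚ)) := by
              rw [Finset.sum_const, hD, nsmul_eq_mul]
          _ ≤ K * (1 / (n : ℚ)) := by
              apply mul_le_mul_of_nonneg_right _ (by positivity)
              exact_mod_cast hkK
          _ = K / n := by ring
      have h1B : (1 : ℚ) / B ≤ A / B := div_le_div_of_nonneg_right hAq hBq.le
      have hhalf : 1 / (2 * (B : ℚ)) < K / n := by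
        have : (1 : ℚ) / B = 1 / (2 * B) + 1 / (2 * B) := by field_simp; norm_num
        linarith
      have hnlt : (n : ℚ) < 2 * K * B := by
        rw [div_lt_div_iff₀ (by positivity) hnq] at hhalf
        linarith
      have hsplit : ∑ m ∈ D, (1 : ℚ) / (m : ℚ) = 1 / (n : ℚ) + ∑ m ∈ D.erase n, (1 : ℚ) / (m : ℚ) :=
        (Finset.add_sum_erase D (fun m : ℕ => (1 : ℚ) / (m : ℚ)) hnD).symm
      have hAn : B < A * n := by
        have h2 : (1 : ℚ) / n < A / B := by
          have := hsum0 (D.erase n)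
          linarith
        rw [div_lt_div_iff₀ hnq hBq] at h2
        have : ((B : ℕ) : ℚ) < ((A * n : ℕ) : ℚ) := by push_cast; linarith
        exact_mod_cast this
      have hfrac : ((A * n - B : ℕ) : ℚ) / ((B * n : ℕ) : ℚ) = A / B - 1 / n := by
        rw [Nat.cast_sub hAn.le]
        push_cast
        field_simp
      have hih := ih (by omega) (D.erase n) (by rw [Finset.card_erase_of_mem hnD, hD]; rfl)
        (fun m hm => hD1 m (Finset.mem_of_mem_erase hm)) (A * n - B) (B * n)
        (Nat.mul_pos hB hn1) (by rw [hfrac]; linarith)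
      rw [hfrac] at hih
      have hgoal : (1 : ℚ) / ((2 * K * B : ℕ) : ℚ) ^ (2 ^ (k + 1)) ≤
          1 / ((2 * K * (B * n) : ℕ) : ℚ) ^ (2 ^ k) := by
        apply one_div_le_one_div_of_le (by positivity)
        rw [pow_succ 2 k, mul_comm (2 ^ k) 2, pow_mul]
        apply pow_le_pow_left₀ (by positivity)
        push_cast
        nlinarith
      refine hgoal.trans (hih.trans ?_)
      rw [hsplit]
      linarith

/-- Consequence: an expansion of `(b-1)/b` has many terms: `b ≤ (2K)^(2^K)`. -/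
theorem lower_card (b K : ℕ) (hK : 1 ≤ K) (hb : 2 ≤ b) (D : Finset ℕ) (hD : D.card ≤ K)
    (h1 : ∀ n ∈ D, 2 ≤ n)
    (h : ((b - 1 : ℕ) : ℚ) / b = ∑ n ∈ D, (1 : ℚ) / (n : ℚ)) : b ≤ (2 * K) ^ (2 ^ K) := by
  have hbq : (0 : ℚ) < b := by exact_mod_cast (by omega : 0 < b)
  have hcast : ((b - 1 : ℕ) : ℚ) = b - 1 := by
    rw [Nat.cast_sub (by omega)]; simp
  have hval : ((b - 1 : ℕ) : ℚ) / b = 1 - 1 / b := by
    rw [hcast]; field_simp
  have hpos : (0 : ℚ) < 1 / b := by positivity
  have hg := gap_lower K hK D.card hD D rfl (fun n hn => by have := h1 n hn; omega) 1 1 le_rfl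
    (by rw [← h, hval]; norm_num; linarith)
  rw [← h, hval] at hg
  have hg' : (1 : ℚ) / ((2 * K : ℕ) : ℚ) ^ (2 ^ D.card) ≤ 1 / b := by
    have e1 : ((2 * K * 1 : ℕ) : ℚ) = ((2 * K : ℕ) : ℚ) := by norm_num
    rw [e1] at hg
    push_cast at hg ⊢
    linarith
  have hKpos : (0 : ℚ) < ((2 * K : ℕ) : ℚ) := by exact_mod_cast (by omega : 0 < 2 * K)
  rw [one_div_le_one_div (by positivity) hbq] at hg'
  have h2 : b ≤ (2 * K) ^ (2 ^ D.card) := by exact_mod_cast hg'
  refine h2.trans ?_
  apply Nat.pow_le_pow_right (by omega)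
  exact Nat.pow_le_pow_right (by norm_num) hD

/-- Analytic form: `K ≥ c log log b`. -/
theorem lower_loglog : ∃ c : ℝ, 0 < c ∧ ∃ b0 : ℕ, ∀ b K : ℕ, b0 ≤ b → 1 ≤ K →
    b ≤ (2 * K) ^ (2 ^ K) → c * Real.log (Real.log b) ≤ K := by
  refine ⟨1 / 3, by norm_num, 3, ?_⟩
  intro b K hb hK h
  have hbr : (3 : ℝ) ≤ b := by exact_mod_cast hb
  have hKr : (1 : ℝ) ≤ K := by exact_mod_cast hK
  have hlogb : 0 < Real.log b := Real.log_pos (by linarith)
  have h1 : Real.log b ≤ 2 ^ K * (2 * K) := by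
    have h2 : (b : ℝ) ≤ ((2 * K : ℝ)) ^ (2 ^ K) := by exact_mod_cast h
    calc Real.log b ≤ Real.log ((2 * K : ℝ) ^ (2 ^ K)) := Real.log_le_log (by linarith) h2
      _ = 2 ^ K * Real.log (2 * K) := by
          rw [Real.log_pow]
          push_cast
          ring
      _ ≤ 2 ^ K * (2 * K) := by
          apply mul_le_mul_of_nonneg_left _ (by positivity)
          have := Real.log_le_sub_one_of_pos (show (0 : ℝ) < 2 * K by linarith)
          linarith
  have h3 : Real.log (Real.log b) ≤ 3 * K := by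
    calc Real.log (Real.log b) ≤ Real.log (2 ^ K * (2 * K)) := Real.log_le_log hlogb h1
      _ = K * Real.log 2 + Real.log (2 * K) := by
          rw [Real.log_mul (by positivity) (by positivity), Real.log_pow]
      _ ≤ K * 1 + 2 * K := by
          have := Real.log_le_sub_one_of_pos (show (0 : ℝ) < 2 * K by linarith)
          have h4 := Real.log_two_lt_d9
          nlinarith
      _ = 3 * K := by ring
  linarith

end Vale.Agent.P012
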