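import Vale.Agent.P012.Upper
import Vale.Agent.P012.Lower

/-! Asymptotic form of the two bounds. -/

namespace Vale.Agent.P012

open Finset

/-- From `upper_pow`: for large `b`, every `a / b` in `(0, 1)` has an expansion with at most
`C log log b` terms. -/
theorem upper_loglog : ∃ C : ℝ, 0 < C ∧ ∃ b0 : ℕ, ∀ b ≥ b0, ∀ a : ℕ, 1 ≤ a → a < b →
    ∃ D : Finset ℕ, (∀ n ∈ D, 2 ≤ n) ∧ (D.card : ℝ) ≤ C * Real.log (Real.log b) ∧
      (a : ℚ) / b = ∑ n ∈ D, (1 : ℚ) / (n : ℚ) := by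
  obtain ⟨K, t0, hK⟩ := upper_pow
  refine ⟨5 * K + 1, by positivity, ⌈Real.exp (Real.exp (t0 + 1))⌉₊, ?_⟩
  intro b hb a ha hab
  have hb1 : Real.exp (Real.exp (t0 + 1)) ≤ b := Nat.ceil_le.1 hb
  have hbpos : (0 : ℝ) < b := lt_of_lt_of_le (Real.exp_pos _) hb1
  have hlog : Real.exp (t0 + 1) ≤ Real.log b := (Real.le_log_iff_exp_le hbpos).2 hb1
  have hlogpos : 0 < Real.log b := lt_of_lt_of_le (Real.exp_pos _) hlog
  have hr : (t0 : ℝ) + 1 ≤ Real.log (Real.log b) := (Real.le_log_iff_exp_le hlogpos).2 hlog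
  set r := Real.log (Real.log b) with hrdef
  have ht0 : (0 : ℝ) ≤ t0 := Nat.cast_nonneg _
  have hr1 : 1 ≤ r := by linarith
  set t := ⌈2 * r⌉₊ + 1 with ht
  have htge : 2 * r + 1 ≤ (t : ℝ) := by
    rw [ht]; push_cast
    have := Nat.le_ceil (2 * r)
    linarith
  have htle : (t : ℝ) ≤ 2 * r + 2 := by
    rw [ht]; push_cast
    have := (Nat.ceil_lt_add_one (show (0 : ℝ) ≤ 2 * r by linarith)).le
    linarith
  have htt0 : t0 ≤ t := by
    have : (t0 : ℝ) ≤ t := by linarith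
    exact_mod_cast this
  have hbt : b ≤ 2 ^ 2 ^ t := by
    have h1 : Real.log b ≤ 2 ^ t * Real.log 2 := by
      have h2 : Real.log b = Real.exp r := (Real.exp_log hlogpos).symm
      have hl2 : (0.6931471803 : ℝ) < Real.log 2 := Real.log_two_gt_d9
      have h3 : Real.exp (r + 1 / 2) ≤ 2 ^ t := by
        have h31 : (2 : ℝ) ^ t = Real.exp (t * Real.log 2) := by
          rw [Real.exp_nat_mul, Real.exp_log (by norm_num)]
        rw [h31]
        apply Real.exp_le_exp.2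
        nlinarith
      have h4 : Real.exp r * (1 / 2 + 1) ≤ Real.exp (r + 1 / 2) := by
        rw [Real.exp_add]
        have := Real.add_one_le_exp (1 / 2 : ℝ)
        exact mul_le_mul_of_nonneg_left this (Real.exp_pos _).le
      rw [h2]
      have h5 : Real.exp r ≤ Real.exp r * (1 / 2 + 1) * Real.log 2 := by
        nlinarith [Real.exp_pos r]
      calc Real.exp r ≤ Real.exp r * (1 / 2 + 1) * Real.log 2 := h5
        _ ≤ 2 ^ t * Real.log 2 := by
          apply mul_le_mul_of_nonneg_right (h4.trans h3)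
          linarith
    have h6 : Real.log b ≤ Real.log ((2 : ℝ) ^ 2 ^ t) := by
      rw [Real.log_pow]
      push_cast
      exact h1
    have h7 : (b : ℝ) ≤ (2 : ℝ) ^ 2 ^ t := (Real.log_le_log_iff hbpos (by positivity)).1 h6
    exact_mod_cast h7
  obtain ⟨D, hD2, hDcard, hDsum⟩ := hK t htt0 a b ha hab hbt
  refine ⟨D, hD2, ?_, hDsum⟩
  have h1 : (D.card : ℝ) ≤ K * (t + 1) := by exact_mod_cast hDcard
  have hK0 : (0 : ℝ) ≤ K := Nat.cast_nonneg _
  calc (D.card : ℝ) ≤ K * (t + 1) := h1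
    _ ≤ K * (5 * r) := by
      apply mul_le_mul_of_nonneg_left _ hK0
      linarith
    _ ≤ (5 * K + 1) * r := by nlinarith

end Vale.Agent.P012
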