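import Vale.Agent.P012.Defs

/-! Task D: Fourier covering lemma. -/

namespace Vale.Agent.P012

open Finset

lemma psi_natCast (n : ℕ) (hn : n ≠ 0) (k : ℕ) :
    psi n (k : ZMod n) = Complex.exp (2 * Real.pi * Complex.I * ((k : ℂ) / (n : ℂ))) := by
  have : NeZero n := ⟨hn⟩
  have h1 : (ZMod.toCircle (k : ZMod n) : ℂ) = _ := ZMod.toCircle_natCast (N := n) k
  have h2 : (ZMod.toCircle (k : ZMod n) : ℂ) = _ := ZMod.toCircle_apply (N := n) (k : ZMod n)
  rw [psi, ← mul_div_assoc, ← mul_div_assoc, ← h1, h2]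

lemma psi_eq (n : ℕ) [NeZero n] (t : ZMod n) : psi n t = ZMod.stdAddChar t := by
  rw [ZMod.stdAddChar_apply, ZMod.toCircle_apply, psi, ← mul_div_assoc]

/-- pairs (`n`, `ν`) parametrise the nonzero residues -/
lemma sum_ne_zero (m : ℕ) (hm : 1 ≤ m) (G : ℕ → ℝ) :
    ∑ v ∈ (range m).filter (· ≠ 0), G v =
      ∑ n ∈ m.divisors.filter (2 ≤ ·), ∑ ν ∈ (range n).filter (fun ν => Nat.Coprime ν n),
        G (ν * (m / n)) := by
  have hm0 : 0 < m := hm
  rw [← Finset.sum_fiberwise_of_maps_to (s := (range m).filter (· ≠ 0))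
    (t := m.divisors.filter (2 ≤ ·)) (g := fun v => m / Nat.gcd v m)]
  · apply Finset.sum_congr rfl
    intro n hn
    rw [Finset.mem_filter, Nat.mem_divisors] at hn
    obtain ⟨⟨hnm, -⟩, hn2⟩ := hn
    obtain ⟨g, rfl⟩ := hnm
    have hn0 : 0 < n := by omega
    have hg0 : 0 < g := Nat.pos_of_mul_pos_right hm0 |> fun h => by
      rcases Nat.eq_zero_or_pos g with h' | h'
      · subst h'; simp at hm0
      · exact h'
    have hdiv : n * g / n = g := Nat.mul_div_cancel_left g hn0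
    rw [hdiv]
    apply Finset.sum_nbij' (fun v => v / g) (fun ν => ν * g)
    · intro v hv
      simp only [Finset.mem_filter, Finset.mem_range] at hv ⊢
      obtain ⟨⟨hv1, hv0⟩, hv2⟩ := hv
      have hgcd : Nat.gcd v (n * g) = g := by
        have h1 : Nat.gcd v (n * g) ∣ n * g := Nat.gcd_dvd_right _ _
        have h2 : n * g = n * Nat.gcd v (n * g) := by
          conv_lhs => rw [← Nat.div_mul_cancel h1, hv2]
        exact (Nat.eq_of_mul_eq_mul_left hn0 h2).symm
      refine ⟨?_, ?_⟩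
      · rw [Nat.div_lt_iff_lt_mul hg0]; exact hv1
      · have := Nat.coprime_div_gcd_div_gcd (m := v) (n := n * g) (by rw [hgcd]; exact hg0)
        rw [hgcd, Nat.mul_div_cancel _ hg0] at this
        exact this
    · intro ν hν
      simp only [Finset.mem_filter, Finset.mem_range] at hν ⊢
      obtain ⟨h1, h2⟩ := hν
      refine ⟨⟨Nat.mul_lt_mul_of_pos_right h1 hg0, ?_⟩, ?_⟩
      · intro h
        rcases Nat.mul_eq_zero.1 h with h | h
        · subst h
          rw [Nat.coprime_zero_left] at h2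
          omega
        · omega
      · rw [Nat.gcd_mul_right, h2.gcd_eq_one, one_mul, Nat.mul_div_cancel _ hg0]
    · intro v hv
      simp only [Finset.mem_filter, Finset.mem_range] at hv
      obtain ⟨⟨hv1, hv0⟩, hv2⟩ := hv
      have hgcd : Nat.gcd v (n * g) = g := by
        have h1 : Nat.gcd v (n * g) ∣ n * g := Nat.gcd_dvd_right _ _
        have h2 : n * g = n * Nat.gcd v (n * g) := by
          conv_lhs => rw [← Nat.div_mul_cancel h1, hv2]
        exact (Nat.eq_of_mul_eq_mul_left hn0 h2).symm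
      have : g ∣ v := by
        have := Nat.gcd_dvd_left v (n * g)
        rwa [hgcd] at this
      exact Nat.div_mul_cancel this
    · intro ν _
      exact Nat.mul_div_cancel _ hg0
    · intro v hv
      simp only [Finset.mem_filter, Finset.mem_range] at hv
      obtain ⟨⟨hv1, hv0⟩, hv2⟩ := hv
      have hgcd : Nat.gcd v (n * g) = g := by
        have h1 : Nat.gcd v (n * g) ∣ n * g := Nat.gcd_dvd_right _ _
        have h2 : n * g = n * Nat.gcd v (n * g) := by
          conv_lhs => rw [← Nat.div_mul_cancel h1, hv2]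
        exact (Nat.eq_of_mul_eq_mul_left hn0 h2).symm
      have : g ∣ v := by
        have := Nat.gcd_dvd_left v (n * g)
        rwa [hgcd] at this
      rw [Nat.div_mul_cancel this]
  · intro v hv
    simp only [Finset.mem_filter, Finset.mem_range] at hv
    simp only [Finset.mem_filter, Nat.mem_divisors]
    have hgm : Nat.gcd v m ∣ m := Nat.gcd_dvd_right _ _
    refine ⟨⟨Nat.div_dvd_of_dvd hgm, by omega⟩, ?_⟩
    have hgv : Nat.gcd v m ≤ v := Nat.le_of_dvd (Nat.pos_of_ne_zero hv.2) (Nat.gcd_dvd_left _ _)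
    obtain ⟨k, hk⟩ := hgm
    have hg0 : 0 < Nat.gcd v m := Nat.gcd_pos_of_pos_right _ hm0
    have h1 : m / Nat.gcd v m = k := Nat.div_eq_of_eq_mul_right hg0 hk
    rw [h1]
    rcases k with _ | _ | k
    · rw [mul_zero] at hk; omega
    · rw [zero_add, mul_one] at hk; omega
    · omega

lemma inv_cast (m n q : ℕ) (hm : m ≠ 0) (hnm : n ∣ m) (hq : Nat.Coprime q m) :
    (((q : ZMod m)⁻¹).val : ZMod n) = (q : ZMod n)⁻¹ := by
  have : NeZero m := ⟨hm⟩
  have h1 : (q : ZMod m) * (((q : ZMod m)⁻¹).val : ZMod m) = 1 := by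
    rw [ZMod.natCast_zmod_val]
    exact ZMod.coe_mul_inv_eq_one q hq
  have h2 : (q : ZMod n) * (((q : ZMod m)⁻¹).val : ZMod n) = 1 := by
    have h3 : ((q * ((q : ZMod m)⁻¹).val : ℕ) : ZMod m) = ((1 : ℕ) : ZMod m) := by
      push_cast; exact h1
    rw [ZMod.natCast_eq_natCast_iff] at h3
    have h4 := h3.of_dvd hnm
    rw [← ZMod.natCast_eq_natCast_iff] at h4
    push_cast at h4
    exact h4
  have h5 : (q : ZMod n) * (q : ZMod n)⁻¹ = 1 :=
    ZMod.coe_mul_inv_eq_one q (hq.coprime_dvd_right hnm)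
  calc (((q : ZMod m)⁻¹).val : ZMod n)
      = ((q : ZMod n) * (q : ZMod n)⁻¹) * (((q : ZMod m)⁻¹).val : ZMod n) := by rw [h5, one_mul]
    _ = (q : ZMod n)⁻¹ * ((q : ZMod n) * (((q : ZMod m)⁻¹).val : ZMod n)) := by ring
    _ = _ := by rw [h2, mul_one]

lemma F_scale {α : Type*} (A : Finset α) (b : α → ℕ) (m n : ℕ) (hm : m ≠ 0) (hnm : n ∣ m)
    (q x ν : ℕ) (hq : Nat.Coprime q m) :
    F A b m ((x : ZMod m) * (q : ZMod m)⁻¹ * ((ν * (m / n) : ℕ) : ZMod m)) =
      F A b n ((x : ZMod n) * (q : ZMod n)⁻¹ * (ν : ZMod n)) := by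
  have : NeZero m := ⟨hm⟩
  obtain ⟨g, rfl⟩ := hnm
  have hn : n ≠ 0 := fun h => hm (by rw [h, zero_mul])
  have hg : g ≠ 0 := fun h => hm (by rw [h, mul_zero])
  rw [Nat.mul_div_cancel_left g (Nat.pos_of_ne_zero hn)]
  unfold F
  apply Finset.sum_congr rfl
  intro S _
  set q' := ((q : ZMod (n * g))⁻¹).val with hq'
  have e1 : (x : ZMod (n * g)) * (q : ZMod (n * g))⁻¹ * ((ν * g : ℕ) : ZMod (n * g)) *
      (b S : ZMod (n * g)) = ((x * q' * (ν * g) * b S : ℕ) : ZMod (n * g)) := by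
    push_cast
    rw [hq', ZMod.natCast_zmod_val]
  have e2 : (x : ZMod n) * (q : ZMod n)⁻¹ * (ν : ZMod n) * (b S : ZMod n) =
      ((x * q' * ν * b S : ℕ) : ZMod n) := by
    push_cast
    rw [hq', inv_cast (n * g) n q hm (Dvd.intro g rfl) hq]
  rw [e1, e2, psi_natCast _ hm, psi_natCast _ hn]
  congr 2
  push_cast
  have h1 : (n : ℂ) ≠ 0 := Nat.cast_ne_zero.2 hn
  have h2 : (g : ℂ) ≠ 0 := Nat.cast_ne_zero.2 hg
  field_simp

lemma sum_inv_sq (s : Finset ℕ) (hs : ∀ n ∈ s, 2 ≤ n) : ∑ n ∈ s, 1 / (n : ℝ) ^ 2 ≤ 1 := by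
  have key : ∀ N : ℕ, ∑ n ∈ Finset.Icc 2 (N + 1), 1 / (n : ℝ) ^ 2 ≤ 1 - 1 / ((N : ℝ) + 1) := by
    intro N
    induction N with
    | zero => simp
    | succ N ih =>
      rw [Finset.sum_Icc_succ_top (by omega)]
      have h1 : 1 / (((N + 1 + 1 : ℕ) : ℝ)) ^ 2 ≤ 1 / ((N : ℝ) + 1) - 1 / ((N : ℝ) + 2) := by
        push_cast
        rw [div_sub_div _ _ (by positivity) (by positivity), div_le_div_iff₀ (by positivity)
          (by positivity)]
        nlinarith [(Nat.cast_nonneg N : (0:ℝ) ≤ N)]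
      push_cast at h1 ih ⊢
      have h2 : (N : ℝ) + 1 + 1 = N + 2 := by ring
      rw [h2] at h1 ⊢
      linarith
  obtain ⟨N, hN⟩ : ∃ N, ∀ n ∈ s, n ≤ N := ⟨s.sup id, fun n hn => Finset.le_sup (f := id) hn⟩
  calc ∑ n ∈ s, 1 / (n : ℝ) ^ 2 ≤ ∑ n ∈ Finset.Icc 2 (N + 1), 1 / (n : ℝ) ^ 2 := by
        apply Finset.sum_le_sum_of_subset_of_nonneg
        · intro n hn
          rw [Finset.mem_Icc]
          exact ⟨hs n hn, (hN n hn).trans (Nat.le_succ N)⟩
        · intro n _ _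
          positivity
    _ ≤ 1 - 1 / ((N : ℝ) + 1) := key N
    _ ≤ 1 := by
        have : 0 ≤ 1 / ((N : ℝ) + 1) := by positivity
        linarith

lemma addChar_sum {ι : Type*} {m : ℕ} (ψ : AddChar (ZMod m) ℂ) (s : Finset ι)
    (f : ι → ZMod m) : ψ (∑ i ∈ s, f i) = ∏ i ∈ s, ψ (f i) := by
  classical
  induction s using Finset.induction_on with
  | empty => simp
  | insert a s ha ih => rw [Finset.sum_insert ha, Finset.prod_insert ha, AddChar.map_add_eq_mul, ih]

theorem fourier_cover {α J : Type*} [DecidableEq α] [DecidableEq J] (A : Finset α)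
    (hA : A.Nonempty) (b : α → ℕ) (m : ℕ) (hm : 1 ≤ m) (I : Finset J) (q x : J → ℕ)
    (hq : ∀ j ∈ I, Nat.Coprime (q j) m)
    (hT : ∀ n, 2 ≤ n → n ∣ m → Tsum A b n I q x ≤ (A.card : ℝ) ^ I.card / (2 * (n : ℝ) ^ 2))
    (c : ℕ) :
    ∃ f : J → α, (∀ j ∈ I, f j ∈ A) ∧
      (∑ j ∈ I, x j * (∏ i ∈ I.erase j, q i) * b (f j)) ≡ c [MOD m] := by
  have hm0 : m ≠ 0 := by omega
  have : NeZero m := ⟨hm0⟩
  obtain ⟨a0, ha0⟩ := hA
  by_contra hcon
  push Not at hcon
  let w : J → ℕ := fun j => x j * ∏ i ∈ I.erase j, q i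
  -- no solutions
  have hns : ∀ p : (j : J) → j ∈ I → α, p ∈ I.pi (fun _ => A) →
      (∑ j ∈ I.attach, (w j : ZMod m) * (b (p j.1 j.2) : ZMod m)) - (c : ZMod m) ≠ 0 := by
    intro p hp h
    rw [sub_eq_zero] at h
    rw [Finset.mem_pi] at hp
    let f : J → α := fun j => if h : j ∈ I then p j h else a0
    have hf : ∀ j ∈ I, f j ∈ A := by
      intro j hj
      simp only [f, hj, dif_pos]
      exact hp j hj
    apply hcon f hf
    rw [← ZMod.natCast_eq_natCast_iff, ← h, ← Finset.sum_attach]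
    push_cast
    apply Finset.sum_congr rfl
    intro j _
    simp only [f, j.2, dif_pos, w]
    push_cast
    ring
  have h0 : ∑ ξ : ZMod m, ZMod.stdAddChar (-(c : ZMod m) * ξ) *
      ∏ j ∈ I, F A b m ((w j : ZMod m) * ξ) = 0 := by
    have h1 : ∀ ξ : ZMod m, ∏ j ∈ I, F A b m ((w j : ZMod m) * ξ) =
        ∑ p ∈ I.pi (fun _ => A), ZMod.stdAddChar
          (∑ j ∈ I.attach, (w j : ZMod m) * (b (p j.1 j.2) : ZMod m) * ξ) := by
      intro ξ
      unfold F
      rw [Finset.prod_sum]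
      apply Finset.sum_congr rfl
      intro p _
      rw [addChar_sum]
      apply Finset.prod_congr rfl
      intro j _
      rw [psi_eq]
      congr 1
      ring
    simp only [h1, Finset.mul_sum]
    rw [Finset.sum_comm]
    apply Finset.sum_eq_zero
    intro p hp
    have h2 : ∀ ξ : ZMod m, (ZMod.stdAddChar (-(c : ZMod m) * ξ) : ℂ) * ZMod.stdAddChar
        (∑ j ∈ I.attach, (w j : ZMod m) * (b (p j.1 j.2) : ZMod m) * ξ) =
        ZMod.stdAddChar (ξ * ((∑ j ∈ I.attach, (w j : ZMod m) * (b (p j.1 j.2) : ZMod m)) -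
          (c : ZMod m))) := by
      intro ξ
      rw [← AddChar.map_add_eq_mul, ← Finset.sum_mul]
      congr 1
      ring
    simp only [h2]
    rw [AddChar.sum_mulShift _ (ZMod.isPrimitive_stdAddChar m), if_neg (hns p hp)]
    simp
  have hnorm : ∀ t : ZMod m, ‖(ZMod.stdAddChar t : ℂ)‖ = 1 := by
    intro t
    rw [ZMod.stdAddChar_apply]
    exact Circle.norm_coe _
  -- isolate the zero frequency
  have h1 : (A.card : ℝ) ^ I.card ≤
      ∑ ξ ∈ Finset.univ.erase (0 : ZMod m), ∏ j ∈ I, ‖F A b m ((w j : ZMod m) * ξ)‖ := by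
    rw [← Finset.add_sum_erase _ _ (Finset.mem_univ (0 : ZMod m))] at h0
    have hF0 : F A b m 0 = (A.card : ℂ) := by
      unfold F
      simp only [zero_mul, psi_eq, AddChar.map_zero_eq_one]
      simp
    simp only [mul_zero, hF0, AddChar.map_zero_eq_one, one_mul, Finset.prod_const] at h0
    have h2 := eq_neg_of_add_eq_zero_left h0
    have h3 := congrArg norm h2
    rw [norm_neg, norm_pow, Complex.norm_natCast] at h3
    rw [h3]
    refine (norm_sum_le _ _).trans (le_of_eq ?_)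
    apply Finset.sum_congr rfl
    intro ξ _
    rw [norm_mul, hnorm, one_mul, norm_prod]
  -- substitute `η = Q ξ`
  have hQ : Nat.Coprime (∏ i ∈ I, q i) m := Nat.Coprime.prod_left hq
  let u : (ZMod m)ˣ := ZMod.unitOfCoprime _ hQ
  have hu : (u : ZMod m) = ((∏ i ∈ I, q i : ℕ) : ZMod m) := ZMod.coe_unitOfCoprime _ hQ
  let G : ZMod m → ℝ := fun η => ∏ j ∈ I, ‖F A b m ((x j : ZMod m) * (q j : ZMod m)⁻¹ * η)‖
  have h2 : ∑ ξ ∈ Finset.univ.erase (0 : ZMod m), ∏ j ∈ I, ‖F A b m ((w j : ZMod m) * ξ)‖ =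
      ∑ η ∈ Finset.univ.erase (0 : ZMod m), G η := by
    apply Finset.sum_equiv (Units.mulLeft u)
    · intro ξ
      simp only [Finset.mem_erase, Finset.mem_univ, and_true, Units.mulLeft_apply, ne_eq]
      rw [Units.mul_right_eq_zero]
    · intro ξ _
      apply Finset.prod_congr rfl
      intro j hj
      congr 2
      rw [Units.mulLeft_apply, hu, ← Finset.mul_prod_erase I q hj]
      have h3 : (q j : ZMod m) * (q j : ZMod m)⁻¹ = 1 := ZMod.coe_mul_inv_eq_one _ (hq j hj)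
      simp only [w]
      push_cast
      calc (x j : ZMod m) * (∏ i ∈ I.erase j, (q i : ZMod m)) * ξ
          = (x j : ZMod m) * (∏ i ∈ I.erase j, (q i : ZMod m)) * ξ *
            ((q j : ZMod m) * (q j : ZMod m)⁻¹) := by rw [h3, mul_one]
        _ = _ := by ring
  have h3 : ∑ η ∈ Finset.univ.erase (0 : ZMod m), G η =
      ∑ v ∈ (range m).filter (· ≠ 0), G (v : ZMod m) := by
    apply Finset.sum_nbij' (fun η : ZMod m => η.val) (fun v : ℕ => (v : ZMod m))
    · intro η hη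
      simp only [Finset.mem_erase, Finset.mem_univ, and_true] at hη
      simp only [Finset.mem_filter, Finset.mem_range]
      refine ⟨ZMod.val_lt η, ?_⟩
      rw [Ne, ZMod.val_eq_zero]
      exact hη
    · intro v hv
      simp only [Finset.mem_filter, Finset.mem_range] at hv
      simp only [Finset.mem_erase, Finset.mem_univ, and_true]
      intro h
      rw [ZMod.natCast_eq_zero_iff] at h
      exact hv.2 (Nat.eq_zero_of_dvd_of_lt h hv.1)
    · intro η _
      exact ZMod.natCast_zmod_val η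
    · intro v hv
      simp only [Finset.mem_filter, Finset.mem_range] at hv
      exact ZMod.val_cast_of_lt hv.1
    · intro η _
      rw [ZMod.natCast_zmod_val]
  rw [h2, h3, sum_ne_zero m hm (fun v => G (v : ZMod m))] at h1
  have h4 : ∑ n ∈ m.divisors.filter (2 ≤ ·), ∑ ν ∈ (range n).filter (fun ν => Nat.Coprime ν n),
      G ((ν * (m / n) : ℕ) : ZMod m) ≤
      ∑ n ∈ m.divisors.filter (2 ≤ ·), (A.card : ℝ) ^ I.card / (2 * (n : ℝ) ^ 2) := by
    apply Finset.sum_le_sum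
    intro n hn
    rw [Finset.mem_filter, Nat.mem_divisors] at hn
    refine le_trans (le_of_eq ?_) (hT n hn.2 hn.1.1)
    unfold Tsum
    apply Finset.sum_congr rfl
    intro ν _
    apply Finset.prod_congr rfl
    intro j hj
    rw [F_scale A b m n hm0 hn.1.1 (q j) (x j) ν (hq j hj)]
  have h5 : ∑ n ∈ m.divisors.filter (2 ≤ ·), (A.card : ℝ) ^ I.card / (2 * (n : ℝ) ^ 2) =
      (A.card : ℝ) ^ I.card / 2 * ∑ n ∈ m.divisors.filter (2 ≤ ·), 1 / (n : ℝ) ^ 2 := by
    rw [Finset.mul_sum]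
    apply Finset.sum_congr rfl
    intro n _
    field_simp
  have h6 := sum_inv_sq (m.divisors.filter (2 ≤ ·)) (fun n hn => (Finset.mem_filter.1 hn).2)
  have hApos : 0 < (A.card : ℝ) ^ I.card := by
    have : 0 < A.card := Finset.card_pos.2 ⟨a0, ha0⟩
    positivity
  rw [h5] at h4
  have h7 : (A.card : ℝ) ^ I.card / 2 * ∑ n ∈ m.divisors.filter (2 ≤ ·), 1 / (n : ℝ) ^ 2 ≤
      (A.card : ℝ) ^ I.card / 2 * 1 := by gcongr
  linarith

end Vale.Agent.P012
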