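import Vale.Agent.P012.PrimeCount

/-! Task C: second moment over q and x. -/

namespace Vale.Agent.P012

open Finset

namespace SecondMoment

lemma psi_eq (n : ℕ) [NeZero n] (t : ZMod n) : psi n t = ZMod.stdAddChar t := by
  rw [ZMod.stdAddChar_apply, ZMod.toCircle_apply]
  unfold psi
  congr 1
  ring

lemma normsq_F {α : Type*} (A : Finset α) (b : α → ℕ) (n : ℕ) [NeZero n] (t : ZMod n) :
    ((‖F A b n t‖ ^ 2 : ℝ) : ℂ) =
      ∑ p ∈ A ×ˢ A, ZMod.stdAddChar (t * ((b p.1 : ZMod n) - (b p.2 : ZMod n))) := by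
  have h1 : F A b n t = ∑ S ∈ A, ZMod.stdAddChar (t * (b S : ZMod n)) := by
    unfold F
    exact Finset.sum_congr rfl fun S _ => psi_eq n _
  push_cast
  rw [← Complex.mul_conj', h1, map_sum, Finset.sum_mul_sum, ← Finset.sum_product']
  apply Finset.sum_congr rfl
  intro p _
  rw [← AddChar.map_neg_eq_conj, ← AddChar.map_add_eq_mul]
  congr 1
  ring

lemma geom_bound (z : ℂ) (hz : ‖z‖ = 1) (h1 : z ≠ 1) (U : ℕ) :
    ‖∑ x ∈ Finset.Icc 1 U, z ^ x‖ ≤ 2 / ‖z - 1‖ := by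
  have h2 : ∑ x ∈ Finset.Icc 1 U, z ^ x = z * ∑ x ∈ Finset.range U, z ^ x := by
    rw [Finset.mul_sum, Finset.range_eq_Ico, Finset.sum_Ico_eq_sum_range]
    have : Finset.Icc 1 U = Finset.Ico 1 (U + 1) := by
      ext x; simp only [Finset.mem_Icc, Finset.mem_Ico]; omega
    rw [this, Finset.sum_Ico_eq_sum_range]
    apply Finset.sum_congr (by simp)
    intro x _
    simp only [zero_add]
    rw [pow_add, pow_one]
  rw [h2, geom_sum_eq h1, norm_mul, hz, one_mul, norm_div]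
  have h3 : 0 < ‖z - 1‖ := norm_pos_iff.mpr (sub_ne_zero.mpr h1)
  apply div_le_div_of_nonneg_right _ h3.le
  calc ‖z ^ U - 1‖ ≤ ‖z ^ U‖ + ‖(1 : ℂ)‖ := norm_sub_le _ _
    _ = 2 := by rw [norm_pow, hz]; norm_num

lemma char_sub_one (n : ℕ) [NeZero n] (g : ZMod n) :
    4 * (g.valMinAbs.natAbs : ℝ) / n ≤ ‖(ZMod.stdAddChar g : ℂ) - 1‖ := by
  have hn : (0 : ℝ) < n := by exact_mod_cast NeZero.pos n
  set v := g.valMinAbs with hv
  have hg : (ZMod.stdAddChar g : ℂ) = Complex.exp (Complex.I * ((2 * Real.pi * v / n : ℝ) : ℂ)) := by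
    rw [← ZMod.coe_valMinAbs g, ZMod.stdAddChar_coe]
    congr 1
    push_cast
    ring
  rw [hg, Complex.norm_exp_I_mul_ofReal_sub_one]
  have hle : |(v : ℝ)| * 2 ≤ n := by
    have := ZMod.natAbs_valMinAbs_le g
    rw [Nat.le_div_two_iff_mul_two_le] at this
    rw [← hv] at this
    have h2 : ((v.natAbs : ℤ) : ℝ) * 2 ≤ n := by exact_mod_cast this
    rwa [Int.natCast_natAbs, Int.cast_abs] at h2
  have habs : |2 * Real.pi * v / n / 2| = Real.pi * |(v : ℝ)| / n := by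
    rw [abs_div, abs_div, abs_mul, abs_mul, abs_of_pos hn, abs_of_pos Real.pi_pos]
    simp only [Nat.abs_ofNat]
    ring
  have h3 : |2 * Real.pi * v / n / 2| ≤ Real.pi / 2 := by
    rw [habs, div_le_div_iff₀ hn (by norm_num)]
    have := Real.pi_pos
    nlinarith
  have h4 := Real.mul_abs_le_abs_sin h3
  rw [habs] at h4
  rw [Real.norm_eq_abs, abs_mul]
  have h5 : ((v.natAbs : ℕ) : ℝ) = |(v : ℝ)| := by
    rw [Nat.cast_natAbs, Int.cast_abs]
  rw [h5]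
  have h6 : 2 / Real.pi * (Real.pi * |(v : ℝ)| / n) = 2 * |(v : ℝ)| / n := by
    have := Real.pi_pos.ne'
    field_simp
  rw [h6] at h4
  have h7 : |(2 : ℝ)| = 2 := by norm_num
  rw [h7]
  calc 4 * |(v : ℝ)| / n = 2 * (2 * |(v : ℝ)| / n) := by ring
    _ ≤ _ := by linarith

lemma sum_char_bound (n : ℕ) [NeZero n] (g : ZMod n) (hg : g ≠ 0) (U : ℕ) :
    ‖∑ x ∈ Finset.Icc 1 U, (ZMod.stdAddChar ((x : ZMod n) * g) : ℂ)‖ ≤
      (n : ℝ) / (2 * g.valMinAbs.natAbs) := by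
  have hn : (0 : ℝ) < n := by exact_mod_cast NeZero.pos n
  have h1 : ∀ x : ℕ, (ZMod.stdAddChar ((x : ZMod n) * g) : ℂ) = (ZMod.stdAddChar g : ℂ) ^ x := by
    intro x
    rw [← AddChar.map_nsmul_eq_pow, nsmul_eq_mul]
  simp only [h1]
  have hz : ‖(ZMod.stdAddChar g : ℂ)‖ = 1 := AddChar.norm_apply _ _
  have hne : (ZMod.stdAddChar g : ℂ) ≠ 1 := by
    intro h
    apply hg
    apply ZMod.injective_stdAddChar
    rw [h, AddChar.map_zero_eq_one]
  have hv : 0 < (g.valMinAbs.natAbs : ℝ) := by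
    have : g.valMinAbs ≠ 0 := by
      intro h
      apply hg
      rw [← ZMod.coe_valMinAbs g, h, Int.cast_zero]
    exact_mod_cast Int.natAbs_pos.mpr this
  have h2 := geom_bound _ hz hne U
  have h3 := char_sub_one n g
  have h4 : 0 < 4 * (g.valMinAbs.natAbs : ℝ) / n := by positivity
  calc _ ≤ 2 / ‖(ZMod.stdAddChar g : ℂ) - 1‖ := h2
    _ ≤ 2 / (4 * (g.valMinAbs.natAbs : ℝ) / n) := div_le_div_of_nonneg_left (by norm_num) h4 h3
    _ = (n : ℝ) / (2 * g.valMinAbs.natAbs) := by field_simp; norm_num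

lemma sum_char_trivial (n : ℕ) [NeZero n] (g : ZMod n) (U : ℕ) :
    ‖∑ x ∈ Finset.Icc 1 U, (ZMod.stdAddChar ((x : ZMod n) * g) : ℂ)‖ ≤ U := by
  calc _ ≤ ∑ x ∈ Finset.Icc 1 U, ‖(ZMod.stdAddChar ((x : ZMod n) * g) : ℂ)‖ := norm_sum_le _ _
    _ = ∑ x ∈ Finset.Icc 1 U, (1 : ℝ) := by
        apply Finset.sum_congr rfl
        intro x _
        exact AddChar.norm_apply _ _
    _ = U := by simp

/-- The bad primes for a fixed nonzero residue `δ`. -/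
lemma bad_card (y N n : ℕ) [NeZero n] (hnN : n ≤ 2 ^ N) (Q : Finset ℕ)
    (hQ : ∀ q ∈ Q, q.Prime ∧ 2 ^ y < q ∧ q ≤ 2 ^ (2 * y)) (δ : ZMod n) (hδ : δ ≠ 0) :
    ((Q.filter (fun q => ¬ q ∣ n)).filter (fun q : ℕ =>
      ((q : ZMod n)⁻¹ * δ).valMinAbs.natAbs * 2 ^ (2 * y + 2) ≤ n)).card * y ≤ N := by
  have hnpos := NeZero.pos n
  set w := δ.valMinAbs with hw
  have hw0 : w ≠ 0 := by
    intro h
    apply hδ
    rw [← ZMod.coe_valMinAbs δ, ← hw, h, Int.cast_zero]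
  apply card_large_primes_dvd y N w.natAbs (Int.natAbs_ne_zero.mpr hw0)
  · have := ZMod.natAbs_valMinAbs_le δ
    rw [← hw] at this
    exact le_trans this (le_trans (Nat.div_le_self n 2) hnN)
  · intro q hq
    rw [Finset.mem_filter, Finset.mem_filter] at hq
    obtain ⟨⟨hqQ, hqn⟩, hqv⟩ := hq
    obtain ⟨hp, hlt, hle⟩ := hQ q hqQ
    refine ⟨hp, hlt, ?_⟩
    set v := ((q : ZMod n)⁻¹ * δ).valMinAbs with hv
    have hcop : Nat.Coprime q n := (Nat.Prime.coprime_iff_not_dvd hp).mpr hqn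
    have hmul : ((q * v : ℤ) : ZMod n) = δ := by
      push_cast
      rw [hv, ZMod.coe_valMinAbs, ← mul_assoc, ZMod.coe_mul_inv_eq_one q hcop, one_mul]
    have hwv : w = q * v := by
      rw [hw, ZMod.valMinAbs_spec]
      refine ⟨hmul.symm, ?_⟩
      have h1 : (q : ℤ) * v.natAbs * 4 ≤ n := by
        have h2 : q * v.natAbs * 4 ≤ n := by
          calc q * v.natAbs * 4 ≤ 2 ^ (2 * y) * v.natAbs * 4 :=
                Nat.mul_le_mul_right _ (Nat.mul_le_mul_right _ hle)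
            _ = v.natAbs * 2 ^ (2 * y + 2) := by ring
            _ ≤ n := hqv
        exact_mod_cast h2
      have h3 : |(q : ℤ) * v| * 4 ≤ n := by
        rw [abs_mul, Nat.abs_cast, ← Int.natCast_natAbs]
        exact h1
      have hn0 : (0 : ℤ) < n := by exact_mod_cast hnpos
      have h4 := abs_le.mp (le_refl |(q : ℤ) * v|)
      constructor
      · nlinarith [h4.1]
      · nlinarith [h4.2]
    rw [hwv, Int.natAbs_mul, Int.natAbs_natCast]
    exact Dvd.intro _ rfl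

/-- Sum over `q` of the inner exponential sums, for one nonzero residue. -/
lemma sum_q_bound (y N n : ℕ) [NeZero n] (hy : 1 ≤ y) (hnN : n ≤ 2 ^ N) (Q : Finset ℕ)
    (hQ : ∀ q ∈ Q, q.Prime ∧ 2 ^ y < q ∧ q ≤ 2 ^ (2 * y)) (δ : ZMod n) (hδ : δ ≠ 0) :
    ∑ q ∈ Q.filter (fun q => ¬ q ∣ n), ‖∑ x ∈ Finset.Icc (1 : ℕ) (2 ^ (3 * y + 1)),
      (ZMod.stdAddChar ((x : ZMod n) * ((q : ZMod n)⁻¹ * δ)) : ℂ)‖ ≤
      ((N : ℝ) / (y : ℝ)) * 2 ^ (3 * y + 1) + (Q.card : ℝ) * 2 ^ (2 * y + 1) := by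
  set Q' := Q.filter (fun q => ¬ q ∣ n) with hQ'
  set B := Q'.filter (fun q : ℕ =>
      ((q : ZMod n)⁻¹ * δ).valMinAbs.natAbs * 2 ^ (2 * y + 2) ≤ n) with hB
  have hcard := bad_card y N n hnN Q hQ δ hδ
  rw [← hQ', ← hB] at hcard
  have hypos : (0 : ℝ) < y := by exact_mod_cast hy
  have h1 : ∀ q ∈ Q', ‖∑ x ∈ Finset.Icc (1 : ℕ) (2 ^ (3 * y + 1)),
      (ZMod.stdAddChar ((x : ZMod n) * ((q : ZMod n)⁻¹ * δ)) : ℂ)‖ ≤
      (if q ∈ B then (2 : ℝ) ^ (3 * y + 1) else 0) + 2 ^ (2 * y + 1) := by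
    intro q hq
    by_cases hqB : q ∈ B
    · rw [if_pos hqB]
      have := sum_char_trivial n ((q : ZMod n)⁻¹ * δ) (2 ^ (3 * y + 1))
      push_cast at this
      have h2 : (0 : ℝ) ≤ 2 ^ (2 * y + 1) := by positivity
      linarith
    · rw [if_neg hqB, zero_add]
      have hq2 : ¬ ((q : ZMod n)⁻¹ * δ).valMinAbs.natAbs * 2 ^ (2 * y + 2) ≤ n := by
        intro h
        exact hqB (Finset.mem_filter.mpr ⟨hq, h⟩)
      push Not at hq2
      rw [hQ', Finset.mem_filter] at hq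
      obtain ⟨hp, _, _⟩ := hQ q hq.1
      have hcop : Nat.Coprime q n := (Nat.Prime.coprime_iff_not_dvd hp).mpr hq.2
      have hg : (q : ZMod n)⁻¹ * δ ≠ 0 := by
        intro h
        apply hδ
        have : (q : ZMod n) * ((q : ZMod n)⁻¹ * δ) = δ := by
          rw [← mul_assoc, ZMod.coe_mul_inv_eq_one q hcop, one_mul]
        rw [← this, h, mul_zero]
      refine le_trans (sum_char_bound n _ hg _) ?_
      have hv : 0 < ((q : ZMod n)⁻¹ * δ).valMinAbs.natAbs := by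
        rcases Nat.eq_zero_or_pos ((q : ZMod n)⁻¹ * δ).valMinAbs.natAbs with h | h
        · rw [h] at hq2; simp at hq2
        · exact h
      have hv' : (0 : ℝ) < (((q : ZMod n)⁻¹ * δ).valMinAbs.natAbs : ℝ) := by exact_mod_cast hv
      rw [div_le_iff₀ (by positivity)]
      have h3 : (n : ℝ) < (((q : ZMod n)⁻¹ * δ).valMinAbs.natAbs : ℝ) * 2 ^ (2 * y + 2) := by
        exact_mod_cast hq2
      have h4 : (2 : ℝ) ^ (2 * y + 2) = 2 ^ (2 * y + 1) * 2 := by ring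
      rw [h4] at h3
      linarith
  refine le_trans (Finset.sum_le_sum h1) ?_
  rw [Finset.sum_add_distrib, Finset.sum_const, ← Finset.sum_filter, nsmul_eq_mul]
  have h5 : Q'.filter (fun q => q ∈ B) = B := by
    ext q
    simp only [Finset.mem_filter]
    constructor
    · exact fun h => h.2
    · intro h
      exact ⟨(Finset.mem_filter.mp h).1, h⟩
  rw [h5, Finset.sum_const, nsmul_eq_mul]
  have h6 : (B.card : ℝ) ≤ N / y := by
    rw [le_div_iff₀ hypos]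
    exact_mod_cast hcard
  have h7 : (Q'.card : ℝ) ≤ Q.card := by
    exact_mod_cast Finset.card_le_card (Finset.filter_subset _ _)
  have h8 : (0 : ℝ) ≤ 2 ^ (3 * y + 1) := by positivity
  have h9 : (0 : ℝ) ≤ 2 ^ (2 * y + 1) := by positivity
  exact add_le_add (mul_le_mul_of_nonneg_right h6 h8) (mul_le_mul_of_nonneg_right h7 h9)

end SecondMoment

open SecondMoment in
theorem second_moment {α : Type*} [DecidableEq α] (A : Finset α) (b : α → ℕ) (y N n : ℕ)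
    (hy : 1 ≤ y) (hn : 1 ≤ n) (hnN : n ≤ 2 ^ N) (Q : Finset ℕ)
    (hQ : ∀ q ∈ Q, q.Prime ∧ 2 ^ y < q ∧ q ≤ 2 ^ (2 * y)) (ν : ℕ) (hν : Nat.Coprime ν n) :
    ∑ q ∈ Q.filter (fun q => ¬ q ∣ n), ∑ x ∈ Finset.Icc (1 : ℕ) (2 ^ (3 * y + 1)),
        ‖F A b n ((x : ZMod n) * (q : ZMod n)⁻¹ * (ν : ZMod n))‖ ^ 2
      ≤ (coll A b n : ℝ) * ((Q.card : ℝ) * 2 ^ (3 * y + 1))
        + (A.card : ℝ) ^ 2 *
          (((N : ℝ) / (y : ℝ)) * 2 ^ (3 * y + 1) + (Q.card : ℝ) * 2 ^ (2 * y + 1)) := by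
  have : NeZero n := ⟨by omega⟩
  set Q' := Q.filter (fun q => ¬ q ∣ n) with hQ'
  set U := 2 ^ (3 * y + 1) with hU
  -- the difference residue of a pair
  let δ : α × α → ZMod n := fun p => (ν : ZMod n) * ((b p.1 : ZMod n) - (b p.2 : ZMod n))
  -- fixed q
  have h1 : ∀ q ∈ Q', ∑ x ∈ Finset.Icc (1 : ℕ) U,
      ‖F A b n ((x : ZMod n) * (q : ZMod n)⁻¹ * (ν : ZMod n))‖ ^ 2 ≤
      ∑ p ∈ A ×ˢ A, ‖∑ x ∈ Finset.Icc 1 U,
        (ZMod.stdAddChar ((x : ZMod n) * ((q : ZMod n)⁻¹ * δ p)) : ℂ)‖ := by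
    intro q _
    have e1 : ((∑ x ∈ Finset.Icc (1 : ℕ) U,
        ‖F A b n ((x : ZMod n) * (q : ZMod n)⁻¹ * (ν : ZMod n))‖ ^ 2 : ℝ) : ℂ) =
        ∑ p ∈ A ×ˢ A, ∑ x ∈ Finset.Icc 1 U,
          (ZMod.stdAddChar ((x : ZMod n) * ((q : ZMod n)⁻¹ * δ p)) : ℂ) := by
      rw [Finset.sum_comm, Complex.ofReal_sum]
      apply Finset.sum_congr rfl
      intro x _
      rw [normsq_F]
      apply Finset.sum_congr rfl
      intro p _
      congr 1
      simp only [δ]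
      ring
    have hnn : 0 ≤ ∑ x ∈ Finset.Icc (1 : ℕ) U,
        ‖F A b n ((x : ZMod n) * (q : ZMod n)⁻¹ * (ν : ZMod n))‖ ^ 2 :=
      Finset.sum_nonneg fun x _ => by positivity
    rw [← abs_of_nonneg hnn, ← Real.norm_eq_abs, ← Complex.norm_real, e1]
    exact norm_sum_le _ _
  have h2 : ∑ q ∈ Q', ∑ x ∈ Finset.Icc (1 : ℕ) U,
      ‖F A b n ((x : ZMod n) * (q : ZMod n)⁻¹ * (ν : ZMod n))‖ ^ 2 ≤
      ∑ p ∈ A ×ˢ A, ∑ q ∈ Q', ‖∑ x ∈ Finset.Icc 1 U,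
        (ZMod.stdAddChar ((x : ZMod n) * ((q : ZMod n)⁻¹ * δ p)) : ℂ)‖ := by
    rw [Finset.sum_comm (s := A ×ˢ A)]
    exact Finset.sum_le_sum h1
  refine le_trans h2 ?_
  set Bd : ℝ := ((N : ℝ) / (y : ℝ)) * 2 ^ (3 * y + 1) + (Q.card : ℝ) * 2 ^ (2 * y + 1) with hBd
  have hBd0 : 0 ≤ Bd := by rw [hBd]; positivity
  have hcard' : (Q'.card : ℝ) ≤ Q.card := by
    exact_mod_cast Finset.card_le_card (Finset.filter_subset _ _)
  have h3 : ∀ p ∈ A ×ˢ A, ∑ q ∈ Q', ‖∑ x ∈ Finset.Icc 1 U,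
      (ZMod.stdAddChar ((x : ZMod n) * ((q : ZMod n)⁻¹ * δ p)) : ℂ)‖ ≤
      (if b p.1 ≡ b p.2 [MOD n] then (Q.card : ℝ) * 2 ^ (3 * y + 1) else 0) + Bd := by
    intro p _
    by_cases hp : b p.1 ≡ b p.2 [MOD n]
    · rw [if_pos hp]
      have h4 : ∑ q ∈ Q', ‖∑ x ∈ Finset.Icc 1 U,
          (ZMod.stdAddChar ((x : ZMod n) * ((q : ZMod n)⁻¹ * δ p)) : ℂ)‖ ≤
          ∑ q ∈ Q', (2 : ℝ) ^ (3 * y + 1) := by
        apply Finset.sum_le_sum
        intro q _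
        have := sum_char_trivial n ((q : ZMod n)⁻¹ * δ p) U
        rw [hU] at this
        push_cast at this
        exact this
      rw [Finset.sum_const, nsmul_eq_mul] at h4
      have h5 : (Q'.card : ℝ) * 2 ^ (3 * y + 1) ≤ (Q.card : ℝ) * 2 ^ (3 * y + 1) :=
        mul_le_mul_of_nonneg_right hcard' (by positivity)
      linarith
    · rw [if_neg hp, zero_add]
      apply sum_q_bound y N n hy hnN Q hQ (δ p)
      intro h
      apply hp
      have hunit : IsUnit (ν : ZMod n) := (ZMod.isUnit_iff_coprime ν n).mpr hν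
      have h6 : (b p.1 : ZMod n) - (b p.2 : ZMod n) = 0 := by
        have h7 : (ν : ZMod n) * ((b p.1 : ZMod n) - (b p.2 : ZMod n)) = 0 := h
        exact (hunit.mul_right_eq_zero).mp h7
      rw [← ZMod.natCast_eq_natCast_iff]
      exact sub_eq_zero.mp h6
  refine le_trans (Finset.sum_le_sum h3) ?_
  rw [Finset.sum_add_distrib, Finset.sum_const, ← Finset.sum_filter, Finset.sum_const,
    nsmul_eq_mul, nsmul_eq_mul]
  unfold coll
  rw [Finset.card_product]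
  push_cast
  rw [← sq]

end Vale.Agent.P012
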