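import Vale.Agent.P012.PrimeCount
import Vale.Agent.P012.Collisions
import Vale.Agent.P012.SecondMoment
import Vale.Agent.P012.Fourier
import Vale.Agent.P012.Choice

/-! Assembly of the main lemma. -/

namespace Vale.Agent.P012

open Finset

lemma num_large (s : ℕ) (hs : 12 ≤ s) : 6 * (s + 1) * (s + 12) ≤ 2 ^ s := by
  induction s, hs using Nat.le_induction with
  | base => norm_num
  | succ n hn ih =>
    rw [pow_succ]
    nlinarith

/-- The numerical facts on `h = 2^s / (6 (s+1)) + 1`. -/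
lemma h_facts (s : ℕ) (hs : 12 ≤ s) :
    s + 12 ≤ 2 ^ s / (6 * (s + 1)) + 1 ∧ 2 ^ s ≤ 6 * (s + 1) * (2 ^ s / (6 * (s + 1)) + 1) ∧
    6 * (s + 1) * (2 ^ s / (6 * (s + 1)) + 1) ≤ 2 ^ s + 6 * (s + 1) := by
  have h1 := num_large s hs
  have hpos : 0 < 6 * (s + 1) := by positivity
  refine ⟨?_, ?_, ?_⟩
  · have : s + 12 ≤ 2 ^ s / (6 * (s + 1)) := by
      rw [Nat.le_div_iff_mul_le hpos]
      linarith [mul_comm (s + 12) (6 * (s + 1))]
    omega
  · exact (Nat.lt_mul_div_succ (2 ^ s) hpos).le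
  · have := Nat.mul_div_le (2 ^ s) (6 * (s + 1))
    linarith

lemma T_le_pow_h (s h : ℕ) (hh : s + 12 ≤ h) : 256 * (6 * (s + 1)) ≤ 2 ^ h := by
  have h1 : s + 1 ≤ 2 ^ s := Nat.lt_two_pow_self
  have h2 : (2 : ℕ) ^ (s + 12) ≤ 2 ^ h := Nat.pow_le_pow_right (by norm_num) hh
  have h3 : (2 : ℕ) ^ (s + 12) = 2 ^ s * 4096 := by rw [pow_add]; norm_num
  omega

lemma two_mem_primesLE (s : ℕ) : 2 ∈ primesLE (2 ^ (s + 1)) := by
  unfold primesLE
  rw [Finset.mem_filter, Finset.mem_range]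
  refine ⟨?_, Nat.prime_two⟩
  have : (2 : ℕ) ^ 1 ≤ 2 ^ (s + 1) := Nat.pow_le_pow_right (by norm_num) (by omega)
  omega

lemma mem_primesLE {z p : ℕ} : p ∈ primesLE z ↔ p ≤ z ∧ p.Prime := by
  unfold primesLE
  rw [Finset.mem_filter, Finset.mem_range, Nat.lt_succ_iff]

lemma coll_real_three_quarters (P : Finset ℕ) (hP : ∀ p ∈ P, p.Prime) (h2 : 2 ∈ P) (n : ℕ)
    (hn : 2 ≤ n) : (coll P.powerset bprod n : ℝ) / 4 ^ P.card ≤ 3 / 4 := by
  have h := coll_le_three_quarters P hP h2 n hn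
  have h' : (4 : ℝ) * (coll P.powerset bprod n : ℝ) ≤ 3 * 4 ^ P.card := by exact_mod_cast h
  rw [div_le_iff₀ (by positivity)]
  linarith

lemma coll_real_pow (P : Finset ℕ) (hP : ∀ p ∈ P, p.Prime) (z L n : ℕ) (hz : ∀ p ∈ P, p ≤ z)
    (hn : 1 ≤ n) (hL : z ^ (2 * L) ≤ n) (hcard : 2 * L ≤ P.card) :
    (coll P.powerset bprod n : ℝ) / 4 ^ P.card ≤ (1 / 2) ^ L := by
  have h := coll_le_pow P hP z L n hz hn hL hcard
  have h' : (2 : ℝ) ^ L * (coll P.powerset bprod n : ℝ) ≤ 4 ^ P.card := by exact_mod_cast h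
  rw [div_le_iff₀ (by positivity), one_div, inv_pow, inv_mul_eq_div, le_div_iff₀ (by positivity)]
  linarith

/-- The key numerical inequality on `ρ`. -/
lemma rho_ineq (s h n : ℕ) (P : Finset ℕ) (hP : P = primesLE (2 ^ (s + 1))) (hs : 12 ≤ s)
    (hh : s + 12 ≤ h) (hTh : 2 ^ s ≤ 6 * (s + 1) * h) (δ : ℝ) (hδ0 : 0 ≤ δ)
    (hδ : δ ≤ (3 * (s + 1) + 1) / 2 ^ (2 * h)) (hn : 2 ≤ n) (hnX : n ≤ 2 ^ 2 ^ s) :
    ((coll P.powerset bprod n : ℝ) / 4 ^ P.card + δ) ≤ 1 ∧
    ((coll P.powerset bprod n : ℝ) / 4 ^ P.card + δ) ^ (16 * (6 * (s + 1))) *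
      (2 ^ (6 * (s + 1) + 4) * (n : ℝ) ^ 5) ≤ 1 := by
  have hPp : ∀ p ∈ P, p.Prime := fun p hp => by
    rw [hP] at hp; exact (mem_primesLE.1 hp).2
  have hPz : ∀ p ∈ P, p ≤ 2 ^ (s + 1) := fun p hp => by
    rw [hP] at hp; exact (mem_primesLE.1 hp).1
  have h2P : 2 ∈ P := by rw [hP]; exact two_mem_primesLE s
  set Z : ℝ := (coll P.powerset bprod n : ℝ) / 4 ^ P.card with hZ
  have hZ0 : 0 ≤ Z := by positivity
  have hZ34 : Z ≤ 3 / 4 := coll_real_three_quarters P hPp h2P n hn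
  obtain ⟨w, hw⟩ : ∃ w, w = s + 1 := ⟨_, rfl⟩
  have hw1 : 1 ≤ w := by omega
  have hTpow := T_le_pow_h s h hh
  -- `2 δ ≤ 2^{-h}`
  have hδ2 : 2 * δ ≤ (1 / 2) ^ h := by
    have h1 : (2 * (3 * ((s : ℝ) + 1) + 1)) ≤ 2 ^ h := by
      have : 2 * (3 * (s + 1) + 1) ≤ 2 ^ h := by omega
      exact_mod_cast this
    have h2 : (0 : ℝ) < 2 ^ h := by positivity
    calc 2 * δ ≤ 2 * ((3 * (s + 1) + 1) / 2 ^ (2 * h)) := by linarith
      _ = (2 * (3 * ((s : ℝ) + 1) + 1)) / 2 ^ (2 * h) := by ring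
      _ ≤ 2 ^ h / 2 ^ (2 * h) := by gcongr
      _ = (1 / 2) ^ h := by
        rw [two_mul, pow_add, one_div, inv_pow]
        field_simp
  have hhalf : ((1 : ℝ) / 2) ^ h ≤ 1 / 4096 := by
    calc ((1 : ℝ) / 2) ^ h ≤ (1 / 2) ^ 12 :=
          pow_le_pow_of_le_one (by norm_num) (by norm_num) (by omega)
      _ = 1 / 4096 := by norm_num
  have hρ45 : Z + δ ≤ 4 / 5 := by linarith
  refine ⟨by linarith, ?_⟩
  rw [← hw]
  have hρ0 : 0 ≤ Z + δ := by positivity
  by_cases hcase : n < 2 ^ (4 * w)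
  · -- small n
    have h1 : (Z + δ) ^ (16 * (6 * w)) ≤ (1 / 32) ^ (6 * w) := by
      calc (Z + δ) ^ (16 * (6 * w)) ≤ (4 / 5) ^ (16 * (6 * w)) := by gcongr
        _ = ((4 / 5) ^ 16) ^ (6 * w) := by rw [pow_mul]
        _ ≤ (1 / 32) ^ (6 * w) := by
          apply pow_le_pow_left₀ (by norm_num) (by norm_num)
    have h2 : (n : ℝ) ^ 5 ≤ 2 ^ (20 * w) := by
      have : (n : ℝ) ≤ 2 ^ (4 * w) := by exact_mod_cast hcase.le
      calc (n : ℝ) ^ 5 ≤ (2 ^ (4 * w)) ^ 5 := by gcongr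
        _ = 2 ^ (20 * w) := by rw [← pow_mul]; congr 1; ring
    calc (Z + δ) ^ (16 * (6 * w)) * (2 ^ (6 * w + 4) * (n : ℝ) ^ 5)
        ≤ (1 / 32) ^ (6 * w) * (2 ^ (6 * w + 4) * 2 ^ (20 * w)) := by gcongr
      _ = (2 ^ (26 * w + 4)) / 2 ^ (30 * w) := by
        rw [← pow_add, one_div, inv_pow]
        have : (32 : ℝ) = 2 ^ 5 := by norm_num
        rw [this, ← pow_mul, inv_mul_eq_div]
        congr 2 <;> ring
      _ ≤ 1 := by
        rw [div_le_one (by positivity)]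
        exact pow_le_pow_right₀ (by norm_num) (by omega)
  · push Not at hcase
    -- large n
    set lam := Nat.log 2 n with hlam
    have hn0 : n ≠ 0 := by omega
    have hlam1 : 2 ^ lam ≤ n := Nat.pow_log_le_self 2 hn0
    have hlam2 : n < 2 ^ (lam + 1) := Nat.lt_pow_succ_log_self (by norm_num) n
    have hlam4 : 4 * w ≤ lam := by
      rw [hlam]; exact (Nat.le_log_iff_pow_le (by norm_num) hn0).2 hcase
    have hlamN : lam ≤ 2 ^ s := by
      have : 2 ^ lam ≤ 2 ^ (2 ^ s) := hlam1.trans hnX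
      exact (Nat.pow_le_pow_iff_right (by norm_num)).1 this
    obtain ⟨L, hL⟩ : ∃ L, L = lam / (2 * w) := ⟨_, rfl⟩
    have hL2 : 2 ≤ L := by
      rw [hL, Nat.le_div_iff_mul_le (by positivity)]
      omega
    have hLle : 2 * w * L ≤ lam := by rw [hL]; exact Nat.mul_div_le _ _
    have hLlt : lam < 2 * w * (L + 1) := by
      rw [hL]; exact Nat.lt_mul_div_succ _ (by positivity)
    have hzL : (2 ^ (s + 1)) ^ (2 * L) ≤ n := by
      rw [← pow_mul, ← hw]
      refine le_trans (Nat.pow_le_pow_right (by norm_num) ?_) hlam1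
      calc w * (2 * L) = 2 * w * L := by ring
        _ ≤ lam := hLle
    have hcardP : 2 * L ≤ P.card := by
      have h1 := card_primesLE_ge s (by omega)
      rw [← hP, ← hw] at h1
      have h2 : w * (2 * L) ≤ w * P.card := by
        calc w * (2 * L) = 2 * w * L := by ring
          _ ≤ 2 ^ s := hLle.trans hlamN
          _ ≤ w * P.card := h1
      exact Nat.le_of_mul_le_mul_left h2 (by omega)
    have hZL : Z ≤ (1 / 2) ^ L :=
      coll_real_pow P hPp (2 ^ (s + 1)) L n hPz (by omega) hzL hcardP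
    have hn5 : (n : ℝ) ^ 5 ≤ 2 ^ (5 * (lam + 1)) := by
      have : (n : ℝ) ≤ 2 ^ (lam + 1) := by exact_mod_cast hlam2.le
      calc (n : ℝ) ^ 5 ≤ (2 ^ (lam + 1)) ^ 5 := by gcongr
        _ = 2 ^ (5 * (lam + 1)) := by rw [← pow_mul]; congr 1; ring
    by_cases hd : δ ≤ (1 / 2) ^ L
    · have h1 : Z + δ ≤ (1 / 2) ^ (L - 1) := by
        have : ((1 : ℝ) / 2) ^ L = (1 / 2) ^ (L - 1) * (1 / 2) := by
          rw [← pow_succ]; congr 1; omega
        rw [this] at hd hZL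
        linarith
      have hexp : 6 * w + 4 + 5 * (lam + 1) ≤ (L - 1) * (16 * (6 * w)) := by
        obtain ⟨L', rfl⟩ : ∃ L', L = L' + 2 := ⟨L - 2, by omega⟩
        have h3 : lam + 1 ≤ 2 * w * (L' + 2 + 1) := hLlt
        have : L' + 2 - 1 = L' + 1 := by omega
        rw [this]
        nlinarith
      calc (Z + δ) ^ (16 * (6 * w)) * (2 ^ (6 * w + 4) * (n : ℝ) ^ 5)
          ≤ ((1 / 2) ^ (L - 1)) ^ (16 * (6 * w)) * (2 ^ (6 * w + 4) * 2 ^ (5 * (lam + 1))) := by
            gcongr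
        _ = 2 ^ (6 * w + 4 + 5 * (lam + 1)) / 2 ^ ((L - 1) * (16 * (6 * w))) := by
          rw [← pow_add, ← pow_mul, one_div, inv_pow, inv_mul_eq_div]
        _ ≤ 1 := by
          rw [div_le_one (by positivity)]
          exact pow_le_pow_right₀ (by norm_num) hexp
    · push Not at hd
      have h1 : Z + δ ≤ (1 / 2) ^ h := by linarith
      have hexp : 6 * w + 4 + 5 * (lam + 1) ≤ h * (16 * (6 * w)) := by
        rw [← hw] at hTh
        nlinarith
      calc (Z + δ) ^ (16 * (6 * w)) * (2 ^ (6 * w + 4) * (n : ℝ) ^ 5)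
          ≤ ((1 / 2) ^ h) ^ (16 * (6 * w)) * (2 ^ (6 * w + 4) * 2 ^ (5 * (lam + 1))) := by
            gcongr
        _ = 2 ^ (6 * w + 4 + 5 * (lam + 1)) / 2 ^ (h * (16 * (6 * w))) := by
          rw [← pow_add, ← pow_mul, one_div, inv_pow, inv_mul_eq_div]
        _ ≤ 1 := by
          rw [div_le_one (by positivity)]
          exact pow_le_pow_right₀ (by norm_num) hexp

lemma bprod_dvd {P S : Finset ℕ} (hS : S ⊆ P) : bprod S ∣ bprod P :=
  Finset.prod_dvd_prod_of_subset S P _ hS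

/-- The covering property of the number built from a good choice of `q, x`. -/
lemma covers_of_choice (s h T : ℕ) (hT : T = 6 * (s + 1)) (hh : s + 12 ≤ h)
    (hTh : 2 ^ s ≤ 6 * (s + 1) * h) (P : Finset ℕ) (hP : P = primesLE (2 ^ (s + 1)))
    (q x : Fin T × Fin 64 → ℕ) (hinj : Function.Injective q)
    (hqp : ∀ j, (q j).Prime) (hqy : ∀ j, 2 ^ (2 * h) < q j)
    (hx : ∀ j, 1 ≤ x j) (hqx : ∀ j, ¬ q j ∣ x j)
    (hgood : ∀ n, 2 ≤ n → n ≤ 2 ^ 2 ^ s → ∀ B : Finset (Fin T), T ≤ 2 * B.card →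
        (∀ j ∈ B ×ˢ (Finset.univ : Finset (Fin 64)), ¬ q j ∣ n) →
        Tsum P.powerset bprod n (B ×ˢ (Finset.univ : Finset (Fin 64))) q x
          ≤ (P.powerset.card : ℝ) ^ (B ×ˢ (Finset.univ : Finset (Fin 64))).card
            / (2 * (n : ℝ) ^ 2)) :
    Covers (bprod P * (∏ j, q j) * ∏ j, x j) (2 ^ 2 ^ s) (384 * (s + 1)) := by
  intro m hm1 hmX c
  classical
  have hMpos : bprod P * (∏ j, q j) * ∏ j, x j ≠ 0 := by
    have h1 : bprod P ≠ 0 := by
      unfold bprod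
      rw [Finset.prod_ne_zero_iff]
      intro p hp
      rw [hP] at hp
      exact (mem_primesLE.1 hp).2.ne_zero
    have h2 : (∏ j, q j) ≠ 0 := Finset.prod_ne_zero_iff.2 fun j _ => (hqp j).ne_zero
    have h3 : (∏ j, x j) ≠ 0 := Finset.prod_ne_zero_iff.2 fun j _ => by
      have := hx j; omega
    exact mul_ne_zero (mul_ne_zero h1 h2) h3
  -- kept blocks
  set B : Finset (Fin T) := Finset.univ.filter (fun β => ∀ i, ¬ q (β, i) ∣ m) with hB
  have hBcard : T ≤ 2 * B.card := by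
    set Bc : Finset (Fin T) := Finset.univ.filter (fun β => ¬ ∀ i, ¬ q (β, i) ∣ m) with hBc
    have hsum : B.card + Bc.card = T := by
      have := Finset.card_filter_add_card_filter_not (s := (Finset.univ : Finset (Fin T)))
        (fun β => ∀ i, ¬ q (β, i) ∣ m)
      rw [Finset.card_univ, Fintype.card_fin] at this
      exact this
    have hex : ∀ β ∈ Bc, ∃ i, q (β, i) ∣ m := by
      intro β hβ
      rw [hBc, Finset.mem_filter] at hβ
      push Not at hβ
      exact hβ.2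
    choose! g hg using hex
    have hRcard : (Bc.image (fun β => q (β, g β))).card = Bc.card := by
      apply Finset.card_image_of_injective
      intro β β' hββ
      have := hinj hββ
      exact (Prod.mk.inj this).1
    have h1 := card_large_primes_dvd (2 * h) (2 ^ s) m (by omega) hmX
      (Bc.image (fun β => q (β, g β))) (by
        intro r hr
        rw [Finset.mem_image] at hr
        obtain ⟨β, hβ, rfl⟩ := hr
        exact ⟨hqp _, hqy _, hg β hβ⟩)
    rw [hRcard] at h1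
    have h2 : Bc.card * (2 * h) ≤ T * h := by
      have h11 : T * h = 6 * (s + 1) * h := congrArg (· * h) hT
      rw [h11]; exact h1.trans hTh
    have hhpos : 0 < h := by omega
    have h3 : 2 * Bc.card ≤ T := by
      have : (2 * Bc.card) * h ≤ T * h := by linarith
      exact Nat.le_of_mul_le_mul_right this hhpos
    omega
  set I : Finset (Fin T × Fin 64) := B ×ˢ (Finset.univ : Finset (Fin 64)) with hI
  have hIq : ∀ j ∈ I, ¬ q j ∣ m := by
    intro j hj
    rw [hI, Finset.mem_product] at hj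
    have := hj.1
    rw [hB, Finset.mem_filter] at this
    exact this.2 j.2
  obtain ⟨f, hfA, hfsum⟩ := fourier_cover P.powerset ⟨∅, Finset.empty_mem_powerset P⟩ bprod m hm1
    I q x (fun j hj => (Nat.Prime.coprime_iff_not_dvd (hqp j)).2 (hIq j hj)) (by
      intro n hn hnm
      refine hgood n hn ((Nat.le_of_dvd hm1 hnm).trans hmX) B hBcard ?_
      intro j hj hjn
      exact hIq j hj (hjn.trans hnm)) c
  set d : Fin T × Fin 64 → ℕ := fun j => x j * (∏ i ∈ I.erase j, q i) * bprod (f j) with hd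
  have hbf : ∀ j ∈ I, ∀ i, ¬ q i ∣ bprod (f j) := by
    intro j hj i hdiv
    unfold bprod at hdiv
    rw [(hqp i).prime.dvd_finsetProd_iff] at hdiv
    obtain ⟨p, hp, hdp⟩ := hdiv
    have hpP : p ∈ P := (Finset.mem_powerset.1 (hfA j hj)) hp
    rw [hP] at hpP
    obtain ⟨hpz, hpp⟩ := mem_primesLE.1 hpP
    have : q i = p := (Nat.prime_dvd_prime_iff_eq (hqp i) hpp).1 hdp
    have h1 := hqy i
    have h2 : (2 : ℕ) ^ (s + 1) ≤ 2 ^ (2 * h) := Nat.pow_le_pow_right (by norm_num) (by omega)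
    omega
  have hdinj : Set.InjOn d (I : Set (Fin T × Fin 64)) := by
    intro i hi j hj hij
    by_contra hne
    have h1 : q i ∣ d j := by
      have : q i ∣ ∏ l ∈ I.erase j, q l :=
        Finset.dvd_prod_of_mem q (Finset.mem_erase.2 ⟨hne, hi⟩)
      exact Dvd.dvd.mul_right (Dvd.dvd.mul_left this _) _
    rw [← hij] at h1
    have h2 : q i ∣ x i * (∏ l ∈ I.erase i, q l) * bprod (f i) := h1
    rw [(hqp i).dvd_mul, (hqp i).dvd_mul] at h2
    rcases h2 with (h2 | h2) | h2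
    · exact hqx i h2
    · rw [(hqp i).prime.dvd_finsetProd_iff] at h2
      obtain ⟨l, hl, hdl⟩ := h2
      have : q i = q l := (Nat.prime_dvd_prime_iff_eq (hqp i) (hqp l)).1 hdl
      exact (Finset.mem_erase.1 hl).1 (hinj this).symm
    · exact hbf i hi i h2
  refine ⟨I.image d, ?_, ?_, ?_, ?_⟩
  · rw [Finset.image_nonempty, hI]
    refine Finset.Nonempty.product ?_ ⟨0, Finset.mem_univ _⟩
    rw [← Finset.card_pos]
    omega
  · intro e he
    rw [Finset.mem_image] at he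
    obtain ⟨j, hj, rfl⟩ := he
    rw [Nat.mem_divisors]
    refine ⟨?_, hMpos⟩
    have h1 : x j ∣ ∏ i, x i := Finset.dvd_prod_of_mem x (Finset.mem_univ j)
    have h2 : (∏ i ∈ I.erase j, q i) ∣ ∏ i, q i :=
      Finset.prod_dvd_prod_of_subset _ _ _ (Finset.subset_univ _)
    have h3 : bprod (f j) ∣ bprod P := bprod_dvd (Finset.mem_powerset.1 (hfA j hj))
    have h4 := mul_dvd_mul (mul_dvd_mul h1 h2) h3
    refine h4.trans ?_
    apply dvd_of_eq
    ring
  · refine Finset.card_image_le.trans ?_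
    rw [hI, Finset.card_product, Finset.card_univ, Fintype.card_fin]
    have : B.card ≤ T := by
      have := Finset.card_le_univ B
      rwa [Fintype.card_fin] at this
    omega
  · rw [Finset.sum_image hdinj]
    exact hfsum

theorem main_lemma : ∃ s0 : ℕ, ∀ s ≥ s0, ∃ M : ℕ, 0 < M ∧ M ≤ 2 ^ (1400 * 2 ^ s) ∧
    Covers M (2 ^ 2 ^ s) (384 * (s + 1)) := by
  refine ⟨12, fun s hs => ?_⟩
  have hs' : 12 ≤ s := hs
  obtain ⟨hh1, hh2, hh3⟩ := h_facts s hs'
  obtain ⟨h, hh⟩ : ∃ h, h = 2 ^ s / (6 * (s + 1)) + 1 := ⟨_, rfl⟩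
  rw [← hh] at hh1 hh2 hh3
  obtain ⟨T, hT⟩ : ∃ T, T = 6 * (s + 1) := ⟨_, rfl⟩
  obtain ⟨P, hP⟩ : ∃ P, P = primesLE (2 ^ (s + 1)) := ⟨_, rfl⟩
  obtain ⟨Q, hQ⟩ : ∃ Q, Q = (Finset.Ioc (2 ^ (2 * h)) (2 ^ (2 * (2 * h)))).filter Nat.Prime :=
    ⟨_, rfl⟩
  have hQcard : 2 ^ (2 * h + 1) ≤ Q.card := by rw [hQ]; exact card_window_ge (2 * h) (by omega)
  have hQmem : ∀ q ∈ Q, q.Prime ∧ 2 ^ (2 * h) < q ∧ q ≤ 2 ^ (2 * (2 * h)) := by
    intro q hq
    rw [hQ, Finset.mem_filter, Finset.mem_Ioc] at hq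
    exact ⟨hq.2, hq.1.1, hq.1.2⟩
  have hTpow := T_le_pow_h s h hh1
  have hpow2 : 2 ^ (2 * h) = 2 ^ h * 2 ^ h := by rw [two_mul, pow_add]
  have hQpos : 0 < Q.card := lt_of_lt_of_le (by positivity) hQcard
  obtain ⟨δ, hδdef⟩ : ∃ δ : ℝ, δ = ((2 ^ s : ℕ) : ℝ) / ((2 * h : ℕ) : ℝ) / (Q.card : ℝ)
      + 1 / 2 ^ (2 * h) := ⟨_, rfl⟩
  have hδ0 : 0 ≤ δ := by rw [hδdef]; positivity
  have hδ : δ ≤ (3 * (s + 1) + 1) / 2 ^ (2 * h) := by
    have h1 : ((2 ^ s : ℕ) : ℝ) / ((2 * h : ℕ) : ℝ) ≤ 3 * (s + 1) := by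
      rw [div_le_iff₀ (by have : 0 < 2 * h := by omega
                          exact_mod_cast this)]
      have : (2 : ℕ) ^ s ≤ 3 * (s + 1) * (2 * h) := by linarith
      exact_mod_cast this
    have h2 : (2 : ℝ) ^ (2 * h) ≤ (Q.card : ℝ) := by
      have h21 : 2 ^ (2 * h) ≤ Q.card := by
        refine le_trans ?_ hQcard
        exact Nat.pow_le_pow_right (by norm_num) (by omega)
      exact_mod_cast h21
    rw [hδdef, add_div]
    gcongr
  have hPcard : (P.powerset.card : ℝ) ^ 2 = 4 ^ P.card := by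
    rw [Finset.card_powerset]
    push_cast
    rw [← pow_mul, mul_comm, pow_mul]
    norm_num
  obtain ⟨q, x, hinj, hqQ, hx, hqx, hgood⟩ := exists_good_choice P.powerset
    ⟨∅, Finset.empty_mem_powerset P⟩ bprod T (2 * h) (2 ^ (3 * (2 * h) + 1)) (2 ^ 2 ^ s) Q
    (fun q hq => ⟨(hQmem q hq).1, (hQmem q hq).2.1⟩) (by omega)
    (by
      refine le_trans ?_ hQcard
      rw [pow_succ 2 (2 * h), hpow2]
      rw [← hT] at hTpow
      have h9 : (64 * T) ^ 2 * 16 ≤ 2 ^ h * 2 ^ h := by nlinarith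
      omega)
    (by positivity)
    (by
      rw [hpow2]
      rw [← hT] at hTpow
      nlinarith)
    (fun n => (coll P.powerset bprod n : ℝ) / 4 ^ P.card + δ)
    (fun n _ _ => by positivity)
    (fun n hn hnX => (rho_ineq s h n P hP hs' hh1 hh2 δ hδ0 hδ hn hnX).1)
    (fun n hn hnX => by
      have := (rho_ineq s h n P hP hs' hh1 hh2 δ hδ0 hδ hn hnX).2
      rw [← hT] at this
      exact this)
    (by
      intro n hn hnX ν hν
      refine (second_moment P.powerset bprod (2 * h) (2 ^ s) n (by omega) (by omega) hnX Q hQmem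
        ν hν).trans (le_of_eq ?_)
      rw [hPcard, hδdef]
      have h1 : (Q.card : ℝ) ≠ 0 := by exact_mod_cast hQpos.ne'
      have h2 : ((2 * h : ℕ) : ℝ) ≠ 0 := by
        have : 2 * h ≠ 0 := by omega
        exact_mod_cast this
      have h3 : (2 : ℝ) ^ (3 * (2 * h) + 1) = 2 ^ (2 * (2 * h) + 1) * 2 ^ (2 * h) := by
        rw [← pow_add]; congr 1; ring
      rw [Nat.cast_pow (2 : ℕ) (3 * (2 * h) + 1), Nat.cast_ofNat, h3]
      field_simp)
  refine ⟨bprod P * (∏ j, q j) * ∏ j, x j, ?_, ?_, ?_⟩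
  · have h1 : 0 < bprod P := by
      unfold bprod
      apply Finset.prod_pos
      intro p hp
      rw [hP] at hp
      exact (mem_primesLE.1 hp).2.pos
    have h2 : 0 < ∏ j, q j := Finset.prod_pos fun j _ => (hQmem _ (hqQ j)).1.pos
    have h3 : 0 < ∏ j, x j := Finset.prod_pos fun j _ => (hx j).1
    positivity
  · -- size
    have h1 : bprod P ≤ 2 ^ (4 * 2 ^ s) := by
      have := primorial_le_four_pow (2 ^ (s + 1))
      have h11 : bprod P = primorial (2 ^ (s + 1)) := by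
        rw [hP]; rfl
      rw [h11]
      refine this.trans (le_of_eq ?_)
      have : (4 : ℕ) = 2 ^ 2 := by norm_num
      rw [this, ← pow_mul]
      congr 1
      rw [pow_succ]; ring
    have hcard : Fintype.card (Fin T × Fin 64) = 64 * T := by
      rw [Fintype.card_prod, Fintype.card_fin, Fintype.card_fin]; ring
    have h2 : (∏ j, q j) ≤ 2 ^ ((4 * h) * (64 * T)) := by
      calc (∏ j, q j) ≤ ∏ _j : Fin T × Fin 64, 2 ^ (4 * h) := by
            apply Finset.prod_le_prod' 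
            intro j _
            have := (hQmem _ (hqQ j)).2.2
            refine this.trans (le_of_eq ?_)
            congr 1; ring
        _ = 2 ^ ((4 * h) * (64 * T)) := by
          rw [Finset.prod_const, Finset.card_univ, hcard, ← pow_mul]
    have h3 : (∏ j, x j) ≤ 2 ^ ((6 * h + 1) * (64 * T)) := by
      calc (∏ j, x j) ≤ ∏ _j : Fin T × Fin 64, 2 ^ (6 * h + 1) := by
            apply Finset.prod_le_prod' 
            intro j _
            have := (hx j).2
            refine this.trans (le_of_eq ?_)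
            congr 1; ring
        _ = 2 ^ ((6 * h + 1) * (64 * T)) := by
          rw [Finset.prod_const, Finset.card_univ, hcard, ← pow_mul]
    calc bprod P * (∏ j, q j) * ∏ j, x j
        ≤ 2 ^ (4 * 2 ^ s) * 2 ^ ((4 * h) * (64 * T)) * 2 ^ ((6 * h + 1) * (64 * T)) := by
          gcongr
      _ = 2 ^ (4 * 2 ^ s + (4 * h) * (64 * T) + (6 * h + 1) * (64 * T)) := by
        rw [← pow_add, ← pow_add]
      _ ≤ 2 ^ (1400 * 2 ^ s) := by
        apply Nat.pow_le_pow_right (by norm_num)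
        have h5 : 4 * 2 ^ s + (4 * h) * (64 * T) + (6 * h + 1) * (64 * T)
            = 4 * 2 ^ s + 640 * (T * h) + 64 * T := by ring
        rw [h5]
        rw [← hT] at hh3
        have h6 := num_large s hs'
        have h7 : T ≤ 2 ^ s := by
          rw [hT]
          nlinarith
        have h8 : 24 * T ≤ 2 ^ s := by
          rw [hT]
          nlinarith
        omega
  · exact covers_of_choice s h T hT hh1 hh2 P hP q x hinj (fun j => (hQmem _ (hqQ j)).1)
      (fun j => (hQmem _ (hqQ j)).2.1) (fun j => (hx j).1) hqx hgood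

end Vale.Agent.P012
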