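import Vale.Agent.P012.Defs

/-! Task A: prime counting. -/

namespace Vale.Agent.P012

open Finset

/-- Chebyshev lower bound from the central binomial coefficient
(`4^n / (2n) ≤ centralBinom n ≤ (2n)^{π(2n)}` with `2n = 2^s`). -/
theorem two_pow_le_primes (s : ℕ) (hs : 1 ≤ s) : 2 ^ s ≤ s * ((primesLE (2 ^ s)).card + 1) := by
  obtain ⟨r, rfl⟩ : ∃ r, s = r + 1 := ⟨s - 1, by omega⟩
  set n := 2 ^ r with hn
  have hn0 : 0 < n := by positivity
  have h2n : 2 ^ (r + 1) = 2 * n := by rw [hn, pow_succ]; ring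
  have h1 : 4 ^ n ≤ 2 * n * Nat.centralBinom n :=
    Nat.four_pow_le_two_mul_self_mul_centralBinom n hn0
  have h2 : Nat.centralBinom n ≤ (2 * n) ^ (primesLE (2 * n)).card := by
    rw [← Nat.prod_pow_factorization_centralBinom n]
    have h3 : ∏ p ∈ range (2 * n + 1), p ^ (Nat.centralBinom n).factorization p =
        ∏ p ∈ primesLE (2 * n), p ^ (Nat.centralBinom n).factorization p := by
      symm
      apply Finset.prod_subset (Finset.filter_subset _ _)
      intro p hp hp'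
      have : ¬ p.Prime := fun h => hp' (Finset.mem_filter.2 ⟨hp, h⟩)
      rw [Nat.factorization_eq_zero_of_not_prime _ this, pow_zero]
    rw [h3]
    apply Finset.prod_le_pow_card
    intro p _
    rw [Nat.centralBinom_eq_two_mul_choose]
    exact Nat.pow_factorization_choose_le (by omega)
  have h3 : 2 ^ (2 ^ (r + 1)) ≤ 2 ^ ((r + 1) * ((primesLE (2 ^ (r + 1))).card + 1)) := by
    calc 2 ^ (2 ^ (r + 1)) = 4 ^ n := by rw [h2n, pow_mul]; norm_num
      _ ≤ 2 * n * Nat.centralBinom n := h1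
      _ ≤ 2 * n * (2 * n) ^ (primesLE (2 * n)).card := Nat.mul_le_mul_left _ h2
      _ = (2 ^ (r + 1)) ^ ((primesLE (2 ^ (r + 1))).card + 1) := by rw [h2n, pow_succ]; ring
      _ = _ := by rw [← pow_mul]
  exact (Nat.pow_le_pow_iff_right (by norm_num)).1 h3

theorem card_primesLE_ge (s : ℕ) (hs : 1 ≤ s) : 2 ^ s ≤ (s + 1) * (primesLE (2 ^ (s + 1))).card := by
  have h1 := two_pow_le_primes (s + 1) (by omega)
  have h2 : s + 1 ≤ 2 ^ s := Nat.lt_two_pow_self
  rw [pow_succ, mul_add, mul_one] at h1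
  rw [pow_succ]
  omega

/-- Many primes in `(2^y, 2^{2y}]`. -/
theorem card_window_ge (y : ℕ) (hy : 8 ≤ y) :
    2 ^ (y + 1) ≤ ((Finset.Ioc (2 ^ y) (2 ^ (2 * y))).filter Nat.Prime).card := by
  by_contra hcon
  push Not at hcon
  set w := ((Finset.Ioc (2 ^ y) (2 ^ (2 * y))).filter Nat.Prime).card with hw
  have h1 := two_pow_le_primes (2 * y) (by omega)
  have h2 : (primesLE (2 ^ (2 * y))).card ≤ w + 2 ^ y := by
    have hsub : primesLE (2 ^ (2 * y)) ⊆
        ((Finset.Ioc (2 ^ y) (2 ^ (2 * y))).filter Nat.Prime) ∪ Finset.Icc 1 (2 ^ y) := by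
      intro p hp
      rw [primesLE, Finset.mem_filter, Finset.mem_range] at hp
      rw [Finset.mem_union, Finset.mem_filter, Finset.mem_Ioc, Finset.mem_Icc]
      rcases le_or_gt p (2 ^ y) with h | h
      · exact Or.inr ⟨hp.2.one_lt.le, h⟩
      · exact Or.inl ⟨⟨h, by omega⟩, hp.2⟩
    refine (Finset.card_le_card hsub).trans ((Finset.card_union_le _ _).trans ?_)
    rw [Nat.card_Icc, hw]
    omega
  have h3 : 8 * y ≤ 2 ^ y := by
    induction y, hy using Nat.le_induction with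
    | base => norm_num
    | succ k hk ih =>
      have : 8 * k ≤ 2 ^ k := by
        clear ih h1 h2 hw hcon
        induction k, hk using Nat.le_induction with
        | base => norm_num
        | succ j hj ih => rw [pow_succ]; omega
      rw [pow_succ]; omega
  have h4 : 2 ^ (2 * y) = 2 ^ y * 2 ^ y := by rw [two_mul, pow_add]
  have h5 : (primesLE (2 ^ (2 * y))).card + 1 ≤ 3 * 2 ^ y := by
    rw [pow_succ] at hcon; omega
  have h6 : 2 ^ y * 2 ^ y ≤ (6 * y) * 2 ^ y := by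
    rw [← h4]
    calc 2 ^ (2 * y) ≤ 2 * y * ((primesLE (2 ^ (2 * y))).card + 1) := h1
      _ ≤ 2 * y * (3 * 2 ^ y) := Nat.mul_le_mul_left _ h5
      _ = _ := by ring
  have h7 := Nat.le_of_mul_le_mul_right h6 (by positivity)
  omega

/-- A nonzero integer `≤ 2^N` has at most `N / y` prime factors `> 2^y`. -/
theorem card_large_primes_dvd (y N n : ℕ) (hn : n ≠ 0) (hN : n ≤ 2 ^ N) (R : Finset ℕ)
    (hR : ∀ q ∈ R, q.Prime ∧ 2 ^ y < q ∧ q ∣ n) : R.card * y ≤ N := by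
  have h1 : ∏ q ∈ R, q ∣ n :=
    Finset.prod_primes_dvd n (fun q hq => (hR q hq).1.prime) (fun q hq => (hR q hq).2.2)
  have h2 : (2 ^ y) ^ R.card ≤ ∏ q ∈ R, q :=
    Finset.pow_card_le_prod R _ _ fun q hq => (hR q hq).2.1.le
  have h3 : 2 ^ (y * R.card) ≤ 2 ^ N := by
    rw [pow_mul]
    exact h2.trans ((Nat.le_of_dvd (Nat.pos_of_ne_zero hn) h1).trans hN)
  have h4 := (Nat.pow_le_pow_iff_right (by norm_num)).1 h3
  rw [mul_comm]
  exact h4

/-- A nonzero integer `≤ 2^W` misses some prime `≤ 2^t` as soon as `t (W+2) < 2^t`. -/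
theorem exists_small_prime (t W n : ℕ) (ht1 : 1 ≤ t) (hn : n ≠ 0) (hW : n ≤ 2 ^ W) (ht : t * (W + 2) < 2 ^ t) :
    ∃ l : ℕ, l.Prime ∧ l ≤ 2 ^ t ∧ ¬ l ∣ n := by
  by_contra hcon
  push Not at hcon
  have hmem : ∀ q ∈ primesLE (2 ^ t), q.Prime ∧ q ∣ n := by
    intro q hq
    rw [primesLE, Finset.mem_filter, Finset.mem_range] at hq
    exact ⟨hq.2, hcon q hq.2 (by omega)⟩
  have h1 : ∏ q ∈ primesLE (2 ^ t), q ∣ n :=
    Finset.prod_primes_dvd n (fun q hq => (hmem q hq).1.prime) (fun q hq => (hmem q hq).2)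
  have h2 : 2 ^ (primesLE (2 ^ t)).card ≤ ∏ q ∈ primesLE (2 ^ t), q :=
    Finset.pow_card_le_prod _ _ _ fun q hq => (hmem q hq).1.two_le
  have h3 : 2 ^ (primesLE (2 ^ t)).card ≤ 2 ^ W :=
    h2.trans ((Nat.le_of_dvd (Nat.pos_of_ne_zero hn) h1).trans hW)
  have h4 := (Nat.pow_le_pow_iff_right (by norm_num)).1 h3
  have h5 := two_pow_le_primes t ht1
  have h6 : t * ((primesLE (2 ^ t)).card + 1) ≤ t * (W + 2) := Nat.mul_le_mul_left _ (by omega)
  omega

end Vale.Agent.P012
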