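import Vale.Agent.P012.Defs

/-! Task F: the recursion (Lemma R). -/

namespace Vale.Agent.P012

open Finset

/-- sum of the reciprocals of `K * (M / d)` -/
lemma sum_recip (M K : ℕ) (hM : 0 < M) (hK : 0 < K) (D : Finset ℕ) (hD : D ⊆ M.divisors) :
    ∑ n ∈ D.image (fun d => K * (M / d)), (1 : ℚ) / (n : ℚ) =
      ((∑ d ∈ D, d : ℕ) : ℚ) / ((K : ℚ) * M) := by
  have hpos : ∀ d ∈ D, 0 < d ∧ d ∣ M := by
    intro d hd
    have := Nat.mem_divisors.1 (hD hd)
    exact ⟨Nat.pos_of_dvd_of_pos this.1 hM, this.1⟩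
  rw [Finset.sum_image]
  · push_cast
    rw [Finset.sum_div]
    apply Finset.sum_congr rfl
    intro d hd
    obtain ⟨h1, e, rfl⟩ := hpos d hd
    rw [Nat.mul_div_cancel_left e h1]
    have he : 0 < e := Nat.pos_of_mul_pos_right (a := d) (b := e) hM |> fun h => by
      rcases Nat.eq_zero_or_pos e with h' | h'
      · subst h'; simp at hM
      · exact h'
    have h1' : (d : ℚ) ≠ 0 := Nat.cast_ne_zero.2 h1.ne'
    have h2' : (e : ℚ) ≠ 0 := Nat.cast_ne_zero.2 he.ne'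
    have h3' : (K : ℚ) ≠ 0 := Nat.cast_ne_zero.2 hK.ne'
    push_cast
    field_simp
  · intro d hd d' hd' h
    have h1 := hpos d hd
    have h2 := hpos d' hd'
    have h3 : M / d = M / d' := Nat.eq_of_mul_eq_mul_left hK h
    have h4 : M / d * d = M := Nat.div_mul_cancel h1.2
    have h5 : M / d' * d' = M := Nat.div_mul_cancel h2.2
    rw [← h3] at h5
    have h6 : 0 < M / d := Nat.div_pos (Nat.le_of_dvd hM h1.2) h1.1
    exact Nat.eq_of_mul_eq_mul_left h6 (h4.trans h5.symm)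

theorem lemmaR (M1 M2 X1 X2 k1 k2 S l : ℕ) (hM1 : 0 < M1) (hM2 : 0 < M2)
    (hc1 : Covers M1 X1 k1) (hc2 : Covers M2 X2 k2) (hl : l.Prime) (h1 : ¬ l ∣ M1)
    (h2 : ¬ l ∣ M2) (hX2 : l ^ S * (k1 * M1) ≤ X2) :
    ∀ f : List ℕ, f.length ≤ S → (∀ g ∈ f, 1 ≤ g ∧ g ≤ X1 ∧ ¬ l ∣ g) →
      ∀ q : ℕ, 1 ≤ q → q ≤ X2 * f.prod →
        ∃ D : Finset ℕ, D.card ≤ f.length * k1 + k2 ∧
          (∀ n ∈ D, 1 ≤ n ∧ l ^ (S - f.length) ∣ n) ∧
          (∑ n ∈ D, (1 : ℚ) / (n : ℚ)) = (q : ℚ) / ((f.prod : ℚ) * (M1 * l ^ S * M2)) := by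
  have hl0 : 0 < l := hl.pos
  -- case A
  have caseA : ∀ f : List ℕ, (∀ g ∈ f, 1 ≤ g) → ∀ q : ℕ, 1 ≤ q → q ≤ X2 →
      ∃ D : Finset ℕ, D.card ≤ f.length * k1 + k2 ∧
          (∀ n ∈ D, 1 ≤ n ∧ l ^ (S - f.length) ∣ n) ∧
          (∑ n ∈ D, (1 : ℚ) / (n : ℚ)) = (q : ℚ) / ((f.prod : ℚ) * (M1 * l ^ S * M2)) := by
    intro f hf q hq1 hq
    have hfp : 0 < f.prod := List.prod_pos hf
    obtain ⟨D, hDne, hDs, hDc, hDm⟩ := hc2 q hq1 hq 0
    have hdvd : q ∣ ∑ d ∈ D, d := (Nat.modEq_zero_iff_dvd).1 hDm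
    obtain ⟨H, hH⟩ := hdvd
    have hDpos : 0 < ∑ d ∈ D, d := by
      obtain ⟨d, hd⟩ := hDne
      have : 0 < d := Nat.pos_of_mem_divisors (hDs hd)
      exact this.trans_le (Finset.single_le_sum (f := fun d => d) (fun _ _ => Nat.zero_le _) hd)
    have hH0 : 0 < H := by
      rcases Nat.eq_zero_or_pos H with h | h
      · rw [h, mul_zero] at hH; omega
      · exact h
    set K := f.prod * M1 * l ^ S with hK
    have hK0 : 0 < K := by positivity
    have hHK : 0 < H * K := by positivity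
    refine ⟨D.image (fun d => (H * K) * (M2 / d)), ?_, ?_, ?_⟩
    · exact Finset.card_image_le.trans (hDc.trans (Nat.le_add_left _ _))
    · intro n hn
      rw [Finset.mem_image] at hn
      obtain ⟨d, hd, rfl⟩ := hn
      have hdd := Nat.mem_divisors.1 (hDs hd)
      have hd0 : 0 < d := Nat.pos_of_mem_divisors (hDs hd)
      have h6 : 0 < M2 / d := Nat.div_pos (Nat.le_of_dvd hM2 hdd.1) hd0
      refine ⟨Nat.mul_pos hHK h6, ?_⟩
      have h7 : l ^ (S - f.length) ∣ l ^ S := pow_dvd_pow l (Nat.sub_le _ _)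
      exact h7.trans ((Dvd.intro_left _ hK.symm).trans ((Dvd.intro_left H rfl).mul_right _))
    · rw [sum_recip M2 (H * K) hM2 hHK D hDs, hH, hK]
      have a1 : (H : ℚ) ≠ 0 := Nat.cast_ne_zero.2 hH0.ne'
      have a2 : (f.prod : ℚ) ≠ 0 := Nat.cast_ne_zero.2 hfp.ne'
      have a3 : (M1 : ℚ) ≠ 0 := Nat.cast_ne_zero.2 hM1.ne'
      have a4 : (l : ℚ) ≠ 0 := Nat.cast_ne_zero.2 hl0.ne'
      have a5 : (M2 : ℚ) ≠ 0 := Nat.cast_ne_zero.2 hM2.ne'
      push_cast
      field_simp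
  intro f
  induction f with
  | nil =>
    intro hlen hf q hq1 hq
    apply caseA [] (fun g hg => (hf g hg).1) q hq1
    simpa using hq
  | cons g fs ih =>
    intro hlen hf q hq1 hq
    by_cases hqX : q ≤ X2
    · exact caseA (g :: fs) (fun g' hg' => (hf g' hg').1) q hq1 hqX
    push Not at hqX
    simp only [List.length_cons] at hlen ⊢
    simp only [List.prod_cons] at hq ⊢
    set i := fs.length with hi
    obtain ⟨hg1, hgX, hlg⟩ := hf g List.mem_cons_self
    have hfs : ∀ g' ∈ fs, 1 ≤ g' ∧ g' ≤ X1 ∧ ¬ l ∣ g' := fun g' hg' =>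
      hf g' (List.mem_cons_of_mem _ hg')
    have hcop : Nat.Coprime (l ^ (i + 1)) g := Nat.Coprime.pow_left _ ((hl.coprime_iff_not_dvd).2 hlg)
    -- choose `c`
    obtain ⟨c, hc⟩ : ∃ c : ℕ, l ^ (i + 1) * c ≡ q [MOD g] := by
      have : NeZero g := ⟨by omega⟩
      refine ⟨((q : ZMod g) * ((l ^ (i + 1) : ℕ) : ZMod g)⁻¹).val, ?_⟩
      rw [← ZMod.natCast_eq_natCast_iff]
      push_cast
      rw [ZMod.natCast_zmod_val]
      have := ZMod.coe_mul_inv_eq_one (l ^ (i + 1)) hcop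
      push_cast at this
      calc (l : ZMod g) ^ (i + 1) * ((q : ZMod g) * ((l : ZMod g) ^ (i + 1))⁻¹)
          = (q : ZMod g) * ((l : ZMod g) ^ (i + 1) * ((l : ZMod g) ^ (i + 1))⁻¹) := by ring
        _ = q := by rw [this, mul_one]
    obtain ⟨D1, hD1ne, hD1s, hD1c, hD1m⟩ := hc1 g hg1 hgX c
    set r := l ^ (i + 1) * ∑ d ∈ D1, d with hr
    have hrq : r ≡ q [MOD g] := (Nat.ModEq.mul_left _ hD1m).trans hc
    have hsum : ∑ d ∈ D1, d ≤ k1 * M1 := by
      calc ∑ d ∈ D1, d ≤ ∑ _d ∈ D1, M1 := Finset.sum_le_sum fun d hd => Nat.divisor_le (hD1s hd)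
        _ = D1.card * M1 := by rw [Finset.sum_const, smul_eq_mul]
        _ ≤ k1 * M1 := Nat.mul_le_mul_right _ hD1c
    have hrX : r ≤ X2 := by
      refine le_trans ?_ hX2
      exact Nat.mul_le_mul (Nat.pow_le_pow_right hl0 hlen) hsum
    have hrq' : r < q := hrX.trans_lt hqX
    obtain ⟨q', hq'⟩ : g ∣ q - r := (Nat.modEq_iff_dvd' hrq'.le).1 hrq
    have hq'0 : 1 ≤ q' := by
      rcases Nat.eq_zero_or_pos q' with h | h
      · rw [h, mul_zero] at hq'; omega
      · exact h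
    have hq'X : q' ≤ X2 * fs.prod := by
      have h3 : g * q' ≤ g * (X2 * fs.prod) := by
        rw [← hq']
        calc q - r ≤ q := Nat.sub_le _ _
          _ ≤ X2 * (g * fs.prod) := hq
          _ = g * (X2 * fs.prod) := by ring
      exact Nat.le_of_mul_le_mul_left h3 hg1
    obtain ⟨D', hD'c, hD'n, hD's⟩ := ih (by omega) hfs q' hq'0 hq'X
    have hfsp : 0 < fs.prod := List.prod_pos fun g' hg' => (hfs g' hg').1
    set K := g * fs.prod * l ^ (S - (i + 1)) * M2 with hK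
    have hK0 : 0 < K := by positivity
    have hlfs : ¬ l ∣ fs.prod := by
      intro h
      rw [hl.prime.dvd_prod_iff] at h
      obtain ⟨g', hg', hlg'⟩ := h
      exact (hfs g' hg').2.2 hlg'
    have hdisj : Disjoint D' (D1.image (fun d => K * (M1 / d))) := by
      rw [Finset.disjoint_left]
      intro n hn hn'
      rw [Finset.mem_image] at hn'
      obtain ⟨d, hd, rfl⟩ := hn'
      have hdd := Nat.mem_divisors.1 (hD1s hd)
      have h3 := (hD'n _ hn).2
      have h4 : S - i = (S - (i + 1)) + 1 := by omega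
      rw [h4, pow_succ] at h3
      have h5 : K * (M1 / d) = l ^ (S - (i + 1)) * (g * fs.prod * M2 * (M1 / d)) := by
        rw [hK]; ring
      rw [h5] at h3
      have h6 : l ∣ g * fs.prod * M2 * (M1 / d) :=
        Nat.dvd_of_mul_dvd_mul_left (Nat.pow_pos hl0) h3
      rcases (hl.dvd_mul).1 h6 with h7 | h7
      · rcases (hl.dvd_mul).1 h7 with h8 | h8
        · rcases (hl.dvd_mul).1 h8 with h9 | h9
          · exact hlg h9
          · exact hlfs h9
        · exact h2 h8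
      · exact h1 (h7.trans (Nat.div_dvd_of_dvd hdd.1))
    refine ⟨D' ∪ D1.image (fun d => K * (M1 / d)), ?_, ?_, ?_⟩
    · calc _ ≤ D'.card + (D1.image (fun d => K * (M1 / d))).card := Finset.card_union_le _ _
        _ ≤ (i * k1 + k2) + k1 := Nat.add_le_add hD'c (Finset.card_image_le.trans hD1c)
        _ = _ := by ring
    · intro n hn
      rcases Finset.mem_union.1 hn with h | h
      · refine ⟨(hD'n n h).1, (pow_dvd_pow l ?_).trans (hD'n n h).2⟩
        omega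
      · rw [Finset.mem_image] at h
        obtain ⟨d, hd, rfl⟩ := h
        have hdd := Nat.mem_divisors.1 (hD1s hd)
        have hd0 : 0 < d := Nat.pos_of_mem_divisors (hD1s hd)
        have h6 : 0 < M1 / d := Nat.div_pos (Nat.le_of_dvd hM1 hdd.1) hd0
        refine ⟨Nat.mul_pos hK0 h6, ?_⟩
        rw [hK]
        exact ((Dvd.intro_left _ rfl).mul_right _).mul_right _
    · rw [Finset.sum_union hdisj, hD's, sum_recip M1 K hM1 hK0 D1 hD1s]
      have a1 : (g : ℚ) ≠ 0 := Nat.cast_ne_zero.2 (by omega)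
      have a2 : (fs.prod : ℚ) ≠ 0 := Nat.cast_ne_zero.2 hfsp.ne'
      have a3 : (M1 : ℚ) ≠ 0 := Nat.cast_ne_zero.2 hM1.ne'
      have a4 : (l : ℚ) ≠ 0 := Nat.cast_ne_zero.2 hl0.ne'
      have a5 : (M2 : ℚ) ≠ 0 := Nat.cast_ne_zero.2 hM2.ne'
      have h7 : (q : ℚ) = g * q' + (l : ℚ) ^ (i + 1) * ((∑ d ∈ D1, d : ℕ) : ℚ) := by
        have h8 : q = g * q' + r := by omega
        rw [h8, hr]
        push_cast
        ring
      have h9 : (l : ℚ) ^ S = (l : ℚ) ^ (S - (i + 1)) * (l : ℚ) ^ (i + 1) := by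
        rw [← pow_add]
        congr 1
        omega
      rw [hK, h7, h9]
      push_cast
      field_simp

end Vale.Agent.P012
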