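import Vale.Agent.P012.MainLemma
import Vale.Agent.P012.Recip
import Vale.Agent.P012.Approx

/-! Assembly of the upper bound. -/

namespace Vale.Agent.P012

open Finset

/-- growth: `n (K (n+1) + 3) < 2^n` for large `n`. -/
lemma growth (K : ℕ) : ∃ n0 : ℕ, ∀ n ≥ n0, n * (K * (n + 1) + 3) < 2 ^ n := by
  have h := (tendsto_pow_const_div_const_pow_of_one_lt 2 (r := (2 : ℝ)) (by norm_num))
  have h2 : ∀ᶠ n : ℕ in Filter.atTop, (n : ℝ) ^ 2 / 2 ^ n < 1 / (2 * K + 4) := by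
    exact (tendsto_order.1 h).2 _ (by positivity)
  obtain ⟨n0, hn0⟩ := Filter.eventually_atTop.1 h2
  refine ⟨max n0 1, fun n hn => ?_⟩
  have h3 := hn0 n (le_trans (le_max_left _ _) hn)
  have hn1 : 1 ≤ n := le_trans (le_max_right _ _) hn
  rw [div_lt_div_iff₀ (by positivity) (by positivity)] at h3
  have h4 : n ^ 2 * (2 * K + 4) < 1 * 2 ^ n := by exact_mod_cast h3
  rw [one_mul] at h4
  refine lt_of_le_of_lt ?_ h4
  have h5 : n * 1 ≤ n * n := Nat.mul_le_mul_left n hn1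
  have h6 : K * (n * 1) ≤ K * (n * n) := Nat.mul_le_mul_left K h5
  calc n * (K * (n + 1) + 3) = K * (n * n) + K * (n * 1) + 3 * (n * 1) := by ring
    _ ≤ K * (n * n) + K * (n * n) + 3 * (n * n) := by omega
    _ ≤ n ^ 2 * (2 * K + 4) := by
      have h7 : n ^ 2 * (2 * K + 4) = K * (n * n) + K * (n * n) + 4 * (n * n) := by ring
      rw [h7]; omega

lemma prod_list_le (L : List ℕ) (X : ℕ) (h : ∀ g ∈ L, g ≤ X) : L.prod ≤ X ^ L.length := by
  induction L with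
  | nil => simp
  | cons a L ih =>
    rw [List.prod_cons, List.length_cons, pow_succ, mul_comm]
    exact Nat.mul_le_mul (ih fun g hg => h g (List.mem_cons_of_mem _ hg))
      (h a List.mem_cons_self)

/-- The final stage: given the remaining fraction `θ = U / (2^(C N) VA ∏ L)`, write it by
`lemmaR` as a sum of distinct unit fractions. -/
lemma finish (C N S k1 k2 M1 M2 VA U l : ℕ) (L : List ℕ) (hC : C = 2868601)
    (hS : S = 1 + 5 * C) (hM1 : 0 < M1) (hM2 : 0 < M2)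
    (hM1le : M1 ≤ 2 ^ (1400 * N)) (hM2le : M2 ≤ 2 ^ (1400 * (2048 * N)))
    (hcov1 : Covers M1 (2 ^ N) k1) (hcov2 : Covers M2 (2 ^ (2048 * N)) k2)
    (hVA1 : 1 ≤ VA) (hVAle : VA ≤ 2 ^ N) (hLlen : L.length = 4 * C)
    (hL : ∀ g ∈ L, 1 ≤ g ∧ g ≤ 2 ^ N)
    (hle : (U : ℚ) / (2 ^ (C * N) * VA * L.prod) ≤ 1 / 2 ^ (C * N)) (hU : U ≠ 0)
    (hlp : l.Prime) (hlS : l ^ S ≤ 2 ^ N) (hl2 : ¬ l ∣ 2) (hlVA : ¬ l ∣ VA)
    (hlL : ¬ l ∣ L.prod) (hlM1 : ¬ l ∣ M1) (hlM2 : ¬ l ∣ M2) (hk1 : k1 ≤ 2 ^ N) :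
    ∃ D1 : Finset ℕ, D1.card ≤ S * k1 + k2 ∧ (∀ n ∈ D1, 1 ≤ n) ∧
      ∑ n ∈ D1, (1 : ℚ) / (n : ℚ) = (U : ℚ) / (2 ^ (C * N) * VA * L.prod) := by
  have hLpos : 0 < L.prod := by
    apply List.prod_pos
    intro g hg
    exact (hL g hg).1
  obtain ⟨f, hf⟩ : ∃ f : List ℕ, f = VA :: (L ++ List.replicate C (2 ^ N)) := ⟨_, rfl⟩
  have hflen : f.length = S := by
    rw [hf, List.length_cons, List.length_append, List.length_replicate, hLlen, hS]
    ring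
  have hfprod : f.prod = 2 ^ (C * N) * VA * L.prod := by
    rw [hf, List.prod_cons, List.prod_append, List.prod_replicate, ← pow_mul, mul_comm N C]
    ring
  obtain ⟨G, hG⟩ : ∃ G, G = M1 * l ^ S * M2 := ⟨_, rfl⟩
  have hGpos : 0 < G := by
    have := hlp.pos
    rw [hG]; positivity
  have hGle : G ≤ 2 ^ (C * N) := by
    calc G ≤ 2 ^ (1400 * N) * 2 ^ N * 2 ^ (1400 * (2048 * N)) := by
          rw [hG]; gcongr
      _ = 2 ^ (C * N) := by
        rw [← pow_add, ← pow_add]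
        congr 1
        rw [hC]; ring
  have hUle : U ≤ VA * L.prod := by
    have hVA1q : (0 : ℚ) < VA := by exact_mod_cast hVA1
    have hLq : (0 : ℚ) < L.prod := by exact_mod_cast hLpos
    have hp : (0 : ℚ) < 2 ^ (C * N) := by positivity
    rw [div_le_div_iff₀ (by positivity) hp] at hle
    have h1 : (U : ℚ) * 2 ^ (C * N) ≤ (VA * L.prod) * 2 ^ (C * N) := by
      calc (U : ℚ) * 2 ^ (C * N) ≤ 1 * (2 ^ (C * N) * VA * L.prod) := hle
        _ = (VA * L.prod) * 2 ^ (C * N) := by ring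
    have h2 : (U : ℚ) ≤ VA * L.prod := le_of_mul_le_mul_right h1 hp
    exact_mod_cast h2
  have hX2 : l ^ S * (k1 * M1) ≤ 2 ^ (2048 * N) := by
    calc l ^ S * (k1 * M1) ≤ 2 ^ N * (2 ^ N * 2 ^ (1400 * N)) := by gcongr
      _ = 2 ^ (1402 * N) := by
        rw [← pow_add, ← pow_add]; congr 1; ring
      _ ≤ 2 ^ (2048 * N) := Nat.pow_le_pow_right (by norm_num) (by omega)
  have hfmem : ∀ g ∈ f, 1 ≤ g ∧ g ≤ 2 ^ N ∧ ¬ l ∣ g := by
    intro g hg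
    rw [hf, List.mem_cons, List.mem_append, List.mem_replicate] at hg
    rcases hg with rfl | hg | ⟨_, rfl⟩
    · exact ⟨hVA1, hVAle, hlVA⟩
    · exact ⟨(hL g hg).1, (hL g hg).2, fun h => hlL (h.trans (List.dvd_prod hg))⟩
    · exact ⟨Nat.one_le_two_pow, le_rfl, fun h => hl2 (hlp.dvd_of_dvd_pow h)⟩
  have hqle : U * G ≤ 2 ^ (2048 * N) * f.prod := by
    rw [hfprod]
    calc U * G ≤ (VA * L.prod) * 2 ^ (C * N) := Nat.mul_le_mul hUle hGle
      _ = 1 * (2 ^ (C * N) * VA * L.prod) := by ring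
      _ ≤ 2 ^ (2048 * N) * (2 ^ (C * N) * VA * L.prod) :=
        Nat.mul_le_mul_right _ Nat.one_le_two_pow
  obtain ⟨D1, hD1card, hD1mem, hD1sum⟩ := lemmaR M1 M2 (2 ^ N) (2 ^ (2048 * N))
    k1 k2 S l hM1 hM2 hcov1 hcov2 hlp hlM1 hlM2 hX2
    f hflen.le hfmem (U * G) (Nat.mul_pos (Nat.pos_of_ne_zero hU) hGpos) hqle
  refine ⟨D1, by rwa [hflen] at hD1card, fun n hn => (hD1mem n hn).1, ?_⟩
  rw [hD1sum]
  have h1 : (((M1 * l ^ S * M2 : ℕ) : ℚ)) = (M1 * l ^ S * M2 : ℚ) := by push_cast; ring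
  rw [← h1, ← hG, hfprod]
  have h2 : ((G : ℕ) : ℚ) ≠ 0 := by exact_mod_cast hGpos.ne'
  push_cast
  rw [mul_div_mul_right _ _ h2]

/-- Existence of a suitable auxiliary prime. -/
lemma exists_aux_prime (C N S n0 M1 M2 VA : ℕ) (L : List ℕ) (hC : C = 2868601)
    (hS : S = 1 + 5 * C) (hM1 : 0 < M1) (hM2 : 0 < M2)
    (hM1le : M1 ≤ 2 ^ (1400 * N)) (hM2le : M2 ≤ 2 ^ (1400 * (2048 * N)))
    (hVA1 : 1 ≤ VA) (hVAle : VA ≤ 2 ^ N) (hLlen : L.length = 4 * C)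
    (hL : ∀ g ∈ L, 1 ≤ g ∧ g ≤ 2 ^ N) (hn : S * (n0 + 1) ≤ N)
    (hn0 : ∀ n ≥ n0, n * (((5 * C + 2) * S) * (n + 1) + 3) < 2 ^ n) :
    ∃ l : ℕ, l.Prime ∧ l ^ S ≤ 2 ^ N ∧ ¬ l ∣ 2 ∧ ¬ l ∣ VA ∧ ¬ l ∣ L.prod ∧ ¬ l ∣ M1 ∧
      ¬ l ∣ M2 := by
  obtain ⟨t', ht'⟩ : ∃ t', t' = N / S := ⟨_, rfl⟩
  have hSpos : 0 < S := by omega
  have hNS : N < S * (t' + 1) := by rw [ht']; exact Nat.lt_mul_div_succ _ hSpos
  have hSN : S * t' ≤ N := by rw [ht']; exact Nat.mul_div_le _ _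
  have ht'n0 : n0 + 1 ≤ t' := by
    rw [ht', Nat.le_div_iff_mul_le hSpos, mul_comm]
    exact hn
  obtain ⟨W, hW⟩ : ∃ W, W = 1 + N + 4 * C * N + 1400 * N + 1400 * (2048 * N) := ⟨_, rfl⟩
  have hLprod : L.prod ≤ 2 ^ (4 * C * N) := by
    have := prod_list_le L (2 ^ N) (fun g hg => (hL g hg).2)
    rw [hLlen, ← pow_mul] at this
    rwa [mul_comm (4 * C) N]
  have hLpos : 0 < L.prod := by
    apply List.prod_pos
    intro g hg
    exact (hL g hg).1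
  have hPi : 2 * VA * L.prod * M1 * M2 ≤ 2 ^ W := by
    calc 2 * VA * L.prod * M1 * M2
        ≤ 2 ^ 1 * 2 ^ N * 2 ^ (4 * C * N) * 2 ^ (1400 * N) * 2 ^ (1400 * (2048 * N)) := by
          gcongr
          norm_num
      _ = 2 ^ W := by rw [← pow_add, ← pow_add, ← pow_add, ← pow_add, hW]
  have hpos : 2 * VA * L.prod * M1 * M2 ≠ 0 := by positivity
  have hgr : t' * (W + 2) < 2 ^ t' := by
    refine lt_of_le_of_lt ?_ (hn0 t' (by omega))
    apply Nat.mul_le_mul_left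
    have h1 : W = 1 + (5 * C) * N := by rw [hW, hC]; ring
    have h2 : (5 * C) * N ≤ (5 * C + 2) * S * (t' + 1) := by
      calc (5 * C) * N ≤ (5 * C) * (S * (t' + 1)) := Nat.mul_le_mul_left _ hNS.le
        _ ≤ (5 * C + 2) * (S * (t' + 1)) := Nat.mul_le_mul_right _ (by omega)
        _ = (5 * C + 2) * S * (t' + 1) := by ring
    omega
  obtain ⟨l, hlp, hlle, hln⟩ := exists_small_prime t' W (2 * VA * L.prod * M1 * M2) (by omega)
    hpos hPi hgr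
  have hlS : l ^ S ≤ 2 ^ N := by
    calc l ^ S ≤ (2 ^ t') ^ S := Nat.pow_le_pow_left hlle S
      _ = 2 ^ (S * t') := by rw [← pow_mul, mul_comm]
      _ ≤ 2 ^ N := Nat.pow_le_pow_right (by norm_num) hSN
  refine ⟨l, hlp, hlS, fun h => hln ?_, fun h => hln ?_, fun h => hln ?_, fun h => hln ?_,
    fun h => hln ?_⟩
  · exact ((((h.mul_right VA).mul_right L.prod).mul_right M1).mul_right M2)
  · exact ((((h.mul_left 2).mul_right L.prod).mul_right M1).mul_right M2)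
  · exact (((h.mul_left (2 * VA)).mul_right M1).mul_right M2)
  · exact ((h.mul_left (2 * VA * L.prod)).mul_right M2)
  · exact h.mul_left _

lemma card_arith (C S t : ℕ) :
    (1 + t + 4 * C) + (S * (384 * (t + 2 + 1)) + 384 * (t + 13 + 1))
      ≤ (1 + 4 * C + S * (384 * 3) + 384 * 14) * (t + 1) := by
  have h1 := Nat.zero_le (C * t)
  have h2 := Nat.zero_le (S * t)
  nlinarith

theorem upper_pow : ∃ K t0 : ℕ, ∀ t ≥ t0, ∀ a b : ℕ, 1 ≤ a → a < b → b ≤ 2 ^ 2 ^ t →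
    ∃ D : Finset ℕ, (∀ n ∈ D, 2 ≤ n) ∧ D.card ≤ K * (t + 1) ∧
      (a : ℚ) / b = ∑ n ∈ D, (1 : ℚ) / (n : ℚ) := by
  obtain ⟨s0, hs0⟩ := main_lemma
  obtain ⟨C, hC⟩ : ∃ C : ℕ, C = 2868601 := ⟨_, rfl⟩
  obtain ⟨S, hS⟩ : ∃ S : ℕ, S = 1 + 5 * C := ⟨_, rfl⟩
  obtain ⟨n0, hn0⟩ := growth ((5 * C + 2) * S)
  refine ⟨1 + 4 * C + S * (384 * 3) + 384 * 14, s0 + S * (n0 + 1) + 10, ?_⟩
  intro t ht a b ha hab hb
  obtain ⟨N, hN⟩ : ∃ N : ℕ, N = 4 * 2 ^ t := ⟨_, rfl⟩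
  have hN2 : 2 ^ (t + 2) = N := by rw [hN, pow_add]; ring
  have hN13 : 2 ^ (t + 13) = 2048 * N := by rw [hN, pow_add]; ring
  have hts0 : s0 ≤ t := by
    have := Nat.zero_le (S * (n0 + 1))
    omega
  have ht10 : 10 ≤ t := by
    have := Nat.zero_le (S * (n0 + 1))
    omega
  obtain ⟨M1, hM1, hM1le, hcov1⟩ := hs0 (t + 2) (by omega)
  obtain ⟨M2, hM2, hM2le, hcov2⟩ := hs0 (t + 13) (by omega)
  rw [hN2] at hM1le hcov1
  rw [hN13] at hM2le hcov2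
  have htN : t < 2 ^ t := Nat.lt_two_pow_self
  obtain ⟨D0, VA, L, U, hD0card, hD02, hVA1, hVAle, hLlen, hL, hsum, hlt, hle⟩ :=
    approx_main t C a b (by omega) (by omega) ha hab hb
  rw [← hN] at hVAle hL hsum hlt hle
  by_cases hU : U = 0
  · refine ⟨D0, hD02, ?_, ?_⟩
    · refine hD0card.trans ?_
      nlinarith
    · rw [hsum, hU]
      simp
  have hSN : S * (n0 + 1) ≤ N := by
    have : S * (n0 + 1) ≤ t := by omega
    omega
  obtain ⟨l, hlp, hlS, hl2, hlVA, hlL, hlM1, hlM2⟩ := exists_aux_prime C N S n0 M1 M2 VA L hC hS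
    hM1 hM2 hM1le hM2le hVA1 hVAle hLlen hL hSN hn0
  have hk1 : 384 * (t + 2 + 1) ≤ 2 ^ N := by
    have h3 : (2 : ℕ) ^ (t + 10) ≤ 2 ^ N := by
      apply Nat.pow_le_pow_right (by norm_num)
      omega
    rw [pow_add] at h3
    omega
  obtain ⟨D1, hD1card, hD1mem, hD1sum⟩ := finish C N S _ _ M1 M2 VA U l L hC hS hM1 hM2 hM1le
    hM2le hcov1 hcov2 hVA1 hVAle hLlen hL hle hU hlp hlS hl2 hlVA hlL hlM1 hlM2 hk1
  have hD1le : ∀ n ∈ D1, (1 : ℚ) / n ≤ (U : ℚ) / (2 ^ (C * N) * VA * L.prod) := by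
    intro n hn
    rw [← hD1sum]
    exact Finset.single_le_sum (f := fun n : ℕ => (1 : ℚ) / n) (fun i _ => by positivity) hn
  have hdisj : Disjoint D0 D1 := by
    rw [Finset.disjoint_left]
    intro n hn0' hn1'
    exact absurd (hlt n hn0') (not_lt.2 (hD1le n hn1'))
  refine ⟨D0 ∪ D1, ?_, ?_, ?_⟩
  · intro n hn
    rcases Finset.mem_union.1 hn with hn | hn
    · exact hD02 n hn
    · by_contra hlt2
      have hn1 : n = 1 := by
        have := hD1mem n hn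
        omega
      have h1 := (hD1le n hn).trans hle
      rw [hn1] at h1
      have h2 : (1 : ℚ) / 2 ^ (C * N) ≤ 1 / 2 ^ 1 := by
        apply one_div_le_one_div_of_le (by positivity)
        apply pow_le_pow_right₀ (by norm_num)
        have : 1 ≤ N := by omega
        nlinarith
      have h3 := h1.trans h2
      norm_num at h3
  · rw [Finset.card_union_of_disjoint hdisj]
    calc D0.card + D1.card ≤ (1 + t + 4 * C) + (S * (384 * (t + 2 + 1)) + 384 * (t + 13 + 1)) :=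
          Nat.add_le_add hD0card hD1card
      _ ≤ (1 + 4 * C + S * (384 * 3) + 384 * 14) * (t + 1) := card_arith C S t
  · rw [Finset.sum_union hdisj, hD1sum]
    exact hsum

end Vale.Agent.P012
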